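import Crest.Agent.Lib.PT.Iter
import Crest.Agent.Lib.PT.ArithPure

/-!
# Arithmetic on binary natural numbers is poly-time
-/

set_option linter.dupNamespace false
set_option autoImplicit false

namespace Crest.Agent.Lib.PT

namespace Arith

variable {α β γ : Type} [PTCode α] [PTCode β] [PTCode γ]

/-! ### bits -/

theorem ptf_bodd : PTF (fun n : ℕ => n.bodd) := by
  refine ⟨_, PT.ite PT.id (PT.const [true]) (PT.const [false]), fun n => ?_⟩
  have key : ∀ x : List Bool, (if x.head? = some true then [true] else [false]) = [x.headI] := by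
    rintro (_ | ⟨b, l⟩)
    · rfl
    · cases b <;> rfl
  have h := key n.bits
  rw [← Nat.bodd_eq_bits_head] at h
  exact h

theorem ptf_div2 : PTF (fun n : ℕ => n.div2) :=
  ⟨_, PT.tail, fun n => by rw [enc_nat, enc_nat, Nat.div2_bits_eq_tail]⟩

theorem ptf_bitTrue : PTF (fun n : ℕ => Nat.bit true n) :=
  ⟨_, PT.cons true, fun n => by
    rw [enc_nat, enc_nat, Nat.bits_append_bit n true (fun _ => rfl)]⟩

theorem ptf_bitFalse : PTF (fun n : ℕ => Nat.bit false n) := by
  refine ⟨_, PTB.ite (PTB.eqConst []) (PT.const []) (PT.cons false), fun n => ?_⟩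
  rcases Nat.eq_zero_or_pos n with rfl | hn
  · simp [enc_nat]
  · have h : n.bits ≠ [] := by
      intro h
      have := Nat.size_eq_bits_len n
      rw [h] at this
      simp at this
      have h2 := Nat.size_pos.2 hn
      omega
    simp only [enc_nat]
    rw [Nat.bits_append_bit n false (fun h => by omega)]
    simp [h]

theorem ptf_bit : PTF₂ Nat.bit := by
  refine PTF.of_eq (PTF.cond (α := Bool × ℕ) (c := fun p => p.1) PTF.fst
    (PTF.comp ptf_bitTrue PTF.snd) (PTF.comp ptf_bitFalse PTF.snd)) ?_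
  rintro ⟨b, n⟩
  cases b <;> rfl

/-! ### conversion to the list of bits, most significant first -/

theorem size_div2 (n : ℕ) : n.div2.size = n.size - 1 := by
  rw [← Nat.size_eq_bits_len, ← Nat.size_eq_bits_len, Nat.div2_bits_eq_tail, List.length_tail]

theorem bits_succ_form {n : ℕ} (h : n ≠ 0) : n.bits = n.bodd :: n.div2.bits := by
  have h1 : n.bits ≠ [] := by
    intro h'
    have := Nat.size_eq_bits_len n
    rw [h'] at this
    have h2 := Nat.size_pos.2 (Nat.pos_of_ne_zero h)
    simp at this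
    omega
  rw [Nat.bodd_eq_bits_head, Nat.div2_bits_eq_tail]
  cases h2 : n.bits with
  | nil => exact absurd h2 h1
  | cons b l => rfl

/-- one step of the bit extraction -/
def bitsStep (s : ℕ × List Bool) : ℕ × List Bool := (s.1.div2, s.1.bodd :: s.2)

theorem bitsStep_iterate (k n : ℕ) (hk : k ≤ n.size) (l : List Bool) :
    bitsStep^[k] (n, l) = (n / 2 ^ k, (n.bits.take k).reverse ++ l) := by
  induction k generalizing n l with
  | zero => simp
  | succ k ih =>
    rw [Function.iterate_succ_apply]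
    have hn : n ≠ 0 := by rintro rfl; simp at hk
    have h1 : k ≤ n.div2.size := by rw [size_div2]; omega
    rw [bitsStep, ih _ h1, bits_succ_form hn, List.take_succ_cons, List.reverse_cons,
      Nat.div2_val, Nat.div_div_eq_div_mul, pow_succ', List.append_assoc]
    simp

theorem bitsStep_size (n : ℕ) : bitsStep^[n.size] (n, []) = (0, n.bits.reverse) := by
  rw [bitsStep_iterate n.size n le_rfl, Nat.div_eq_of_lt (Nat.lt_size_self n),
    ← Nat.size_eq_bits_len, List.take_length, List.append_nil]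

theorem sz_boolList (l : List Bool) : sz l = 3 * l.length := by
  induction l with
  | nil => rfl
  | cons b l ih => simp [ih]; omega

theorem size_div_le (n k : ℕ) : (n / 2 ^ k).size ≤ n.size :=
  Nat.size_le_size (Nat.div_le_self _ _)

theorem ptf_bitsRev : PTF (fun n : ℕ => n.bits.reverse) := by
  have hn : PTF (fun n : ℕ => Un.mk n.size) :=
    (PTU.sz (α := ℕ)).of_eq (fun n => sz_nat n)
  have hf : PTF₂ (fun (_ : ℕ) (s : ℕ × List Bool) => bitsStep s) := by
    refine PTF.prodMk (PTF.comp ptf_div2 (by fun_prop)) (PTF.listCons (PTF.comp ptf_bodd ?_) ?_) <;>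
      fun_prop
  have ha : PTF (fun n : ℕ => ((n, []) : ℕ × List Bool)) := by fun_prop
  have h := PTF.iterate' (n := fun n : ℕ => n.size) (f := fun (_ : ℕ) s => bitsStep s)
    (a := fun n => (n, [])) hn hf ha
    (B := fun n => 2 * sz n + 1 + 3 * sz n) (by fun_prop) (fun n i hi => by
      rw [bitsStep_iterate i n hi, sz_prod, sz_boolList]
      have h1 := size_div_le n i
      simp only [sz_nat, List.append_nil, List.length_reverse, List.length_take]
      omega)
  exact PTF.of_eq (PTF.comp PTF.snd h) (fun n => by rw [bitsStep_size])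

theorem ptf_msb : PTF msb := by
  refine PTF.foldl (γ := List Bool) (l := fun c => c) (f := fun _ n b => Nat.bit b n)
    (b := fun _ => 0) PTF.id ?_ (PTF.const _) (B := fun c => sz c) PTF.id.sz (fun c i hi => ?_)
  · exact PTF.comp₂ ptf_bit (by fun_prop) (by fun_prop)
  · change sz (msb (c.take i)) ≤ _
    rw [sz_nat]
    have h1 := size_msb_le (c.take i)
    have h2 := length_le_sz c
    rw [List.length_take] at h1
    omega

theorem ptf_toNatSize : PTF (fun n : ℕ => Un.mk n.size) :=
  (PTU.sz (α := ℕ)).of_eq (fun n => sz_nat n)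

theorem ptu_size {f : α → ℕ} (hf : PTF f) : PTU (fun a => (f a).size) :=
  PTF.comp (g := fun n : ℕ => Un.mk n.size) ptf_toNatSize hf

/-! ### addition -/

theorem ptf_maj {f g h : α → Bool} (hf : PTF f) (hg : PTF g) (hh : PTF h) :
    PTF (fun a => maj (f a) (g a) (h a)) :=
  PTF.comp (g := fun p : Bool × Bool × Bool => maj p.1 p.2.1 p.2.2) (PTF.of_finite _)
    (PTF.prodMk hf (PTF.prodMk hg hh))

theorem ptf_xor3 {f g h : α → Bool} (hf : PTF f) (hg : PTF g) (hh : PTF h) :
    PTF (fun a => xor3 (f a) (g a) (h a)) :=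
  PTF.comp (g := fun p : Bool × Bool × Bool => xor3 p.1 p.2.1 p.2.2) (PTF.of_finite _)
    (PTF.prodMk hf (PTF.prodMk hg hh))

theorem ptf_bor {f g h : α → Bool} (hf : PTF f) (hg : PTF g) (hh : PTF h) :
    PTF (fun a => bor (f a) (g a) (h a)) :=
  PTF.comp (g := fun p : Bool × Bool × Bool => bor p.1 p.2.1 p.2.2) (PTF.of_finite _)
    (PTF.prodMk hf (PTF.prodMk hg hh))

theorem ptf_addStep : PTF addStep := by
  have h1 : PTF (fun s : (ℕ × ℕ) × (Bool × List Bool) => s.1.1) := by fun_prop
  have h2 : PTF (fun s : (ℕ × ℕ) × (Bool × List Bool) => s.1.2) := by fun_prop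
  have h3 : PTF (fun s : (ℕ × ℕ) × (Bool × List Bool) => s.2.1) := by fun_prop
  have h4 : PTF (fun s : (ℕ × ℕ) × (Bool × List Bool) => s.2.2) := by fun_prop
  have b1 := PTF.comp ptf_bodd h1
  have b2 := PTF.comp ptf_bodd h2
  exact PTF.prodMk (PTF.prodMk (PTF.comp ptf_div2 h1) (PTF.comp ptf_div2 h2))
    (PTF.prodMk (ptf_maj b1 b2 h3) (PTF.listCons (ptf_xor3 b1 b2 h3) h4))

theorem ptf_subStep : PTF subStep := by
  have h1 : PTF (fun s : (ℕ × ℕ) × (Bool × List Bool) => s.1.1) := by fun_prop
  have h2 : PTF (fun s : (ℕ × ℕ) × (Bool × List Bool) => s.1.2) := by fun_prop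
  have h3 : PTF (fun s : (ℕ × ℕ) × (Bool × List Bool) => s.2.1) := by fun_prop
  have h4 : PTF (fun s : (ℕ × ℕ) × (Bool × List Bool) => s.2.2) := by fun_prop
  have b1 := PTF.comp ptf_bodd h1
  have b2 := PTF.comp ptf_bodd h2
  exact PTF.prodMk (PTF.prodMk (PTF.comp ptf_div2 h1) (PTF.comp ptf_div2 h2))
    (PTF.prodMk (ptf_bor b1 b2 h3) (PTF.listCons (ptf_xor3 b1 b2 h3) h4))

theorem ptf_addIter : PTF (fun p : ℕ × ℕ =>
    addStep^[p.1.size + p.2.size + 1] ((p.1, p.2), (false, []))) := by
  refine PTF.iterate' (f := fun _ s => addStep s) (n := fun p : ℕ × ℕ => p.1.size + p.2.size + 1)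
    (a := fun p => ((p.1, p.2), (false, []))) ?_ (PTF.comp ptf_addStep PTF.snd) (by fun_prop)
    (B := fun p => 2 * (2 * sz p + 1 + sz p) + 1 + (3 + 3 * (2 * sz p + 1))) (by fun_prop)
    (fun p i hi => ?_)
  · exact PTU.succ (PTU.add (ptu_size PTF.fst) (ptu_size PTF.snd))
  · obtain ⟨h1, h2, h3, -⟩ := addStep_iter i p.1 p.2 false
    change sz (addStep^[i] ((p.1, p.2), (false, []))) ≤ _
    set s := addStep^[i] ((p.1, p.2), (false, []))
    simp only [sz_prod, sz_boolList, sz_nat, sz_bool]
    rw [h1, h2, h3]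
    have e1 := size_div_le p.1 i
    have e2 := size_div_le p.2 i
    omega

theorem ptf_subIter : PTF (fun p : ℕ × ℕ =>
    subStep^[p.1.size + p.2.size] ((p.1, p.2), (false, []))) := by
  refine PTF.iterate' (f := fun _ s => subStep s) (n := fun p : ℕ × ℕ => p.1.size + p.2.size)
    (a := fun p => ((p.1, p.2), (false, []))) ?_ (PTF.comp ptf_subStep PTF.snd) (by fun_prop)
    (B := fun p => 2 * (2 * sz p + 1 + sz p) + 1 + (3 + 3 * (2 * sz p + 1))) (by fun_prop)
    (fun p i hi => ?_)
  · exact PTU.add (ptu_size PTF.fst) (ptu_size PTF.snd)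
  · obtain ⟨h1, h2, h3, -⟩ := subStep_iter i p.1 p.2 false
    change sz (subStep^[i] ((p.1, p.2), (false, []))) ≤ _
    set s := subStep^[i] ((p.1, p.2), (false, []))
    simp only [sz_prod, sz_boolList, sz_nat, sz_bool]
    rw [h1, h2, h3]
    have e1 := size_div_le p.1 i
    have e2 := size_div_le p.2 i
    omega

theorem ptf_add : PTF (fun p : ℕ × ℕ => p.1 + p.2) := by
  have h := ptf_addIter
  exact PTF.of_eq (PTF.comp ptf_msb (PTF.comp PTF.snd (PTF.comp PTF.snd h)))
    (fun p => (add_eq p.1 p.2).symm)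

theorem ptf_ltb : PTF (fun p : ℕ × ℕ => decide (p.1 < p.2)) := by
  have h := ptf_subIter
  refine PTF.of_eq (PTF.comp PTF.fst (PTF.comp PTF.snd h)) (fun p => ?_)
  have := lt_iff p.1 p.2
  by_cases h : p.1 < p.2
  · simp [h, this.1 h]
  · have h2 := mt this.2 h
    simp only [h, decide_false]
    simpa using h2

theorem ptf_sub : PTF (fun p : ℕ × ℕ => p.1 - p.2) := by
  have h := ptf_subIter
  refine PTF.of_eq (PTF.cond (PTF.comp PTF.fst (PTF.comp PTF.snd h)) (PTF.const 0)
    (PTF.comp ptf_msb (PTF.comp PTF.snd (PTF.comp PTF.snd h)))) (fun p => ?_)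
  rw [sub_eq p.1 p.2]
  cases (subStep^[p.1.size + p.2.size] ((p.1, p.2), (false, []))).2.1 <;> rfl

end Arith

section api

variable {α β γ : Type} [PTCode α] [PTCode β] [PTCode γ] {f g : α → ℕ}

@[fun_prop]
protected theorem PTF.natAdd (hf : PTF f) (hg : PTF g) : PTF (fun a => f a + g a) :=
  PTF.comp Arith.ptf_add (PTF.prodMk hf hg)

@[fun_prop]
protected theorem PTF.natSub (hf : PTF f) (hg : PTF g) : PTF (fun a => f a - g a) :=
  PTF.comp Arith.ptf_sub (PTF.prodMk hf hg)

protected theorem PTPred.natLt (hf : PTF f) (hg : PTF g) : PTPred (fun a => f a < g a) :=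
  PTPred.of_ptf (PTF.comp Arith.ptf_ltb (PTF.prodMk hf hg))

protected theorem PTPred.natLe (hf : PTF f) (hg : PTF g) : PTPred (fun a => f a ≤ g a) :=
  (PTPred.natLt hg hf).not.of_iff (fun _ => not_lt)

protected theorem PTPred.natEq (hf : PTF f) (hg : PTF g) : PTPred (fun a => f a = g a) :=
  ((PTPred.natLe hf hg).and (PTPred.natLe hg hf)).of_iff (fun _ => le_antisymm_iff.symm)

end api

namespace Arith

variable {α β γ : Type} [PTCode α] [PTCode β] [PTCode γ]

/-! ### multiplication -/

theorem size_mul_le (x y : ℕ) : (x * y).size ≤ x.size + y.size := by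
  rw [Nat.size_le, pow_add]
  exact Nat.mul_lt_mul'' (Nat.lt_size_self x) (Nat.lt_size_self y)

theorem size_add_le (x y : ℕ) : (x + y).size ≤ x.size + y.size + 1 := by
  rw [Nat.size_le, pow_succ]
  have h1 : x < 2 ^ (x.size + y.size) :=
    (Nat.lt_size_self x).trans_le (Nat.pow_le_pow_right (by norm_num) (by omega))
  have h2 : y < 2 ^ (x.size + y.size) :=
    (Nat.lt_size_self y).trans_le (Nat.pow_le_pow_right (by norm_num) (by omega))
  omega

theorem size_bit_le (b : Bool) (n : ℕ) : (Nat.bit b n).size ≤ n.size + 1 := by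
  rw [Nat.size_le, pow_succ, Nat.bit_val]
  have h1 := Nat.lt_size_self n
  have h2 := b.toNat_le
  omega

theorem ptf_mul : PTF (fun p : ℕ × ℕ => p.1 * p.2) := by
  have hl : PTF (fun p : ℕ × ℕ => p.1.bits.reverse) :=
    PTF.comp (g := fun n : ℕ => n.bits.reverse) ptf_bitsRev PTF.fst
  have hstep : PTF (fun p : (ℕ × ℕ) × ℕ × Bool =>
      Nat.bit false p.2.1 + (if p.2.2 then p.1.2 else 0)) := by
    refine PTF.natAdd (PTF.comp ptf_bitFalse (by fun_prop)) ?_
    exact (PTF.cond (c := fun p : (ℕ × ℕ) × ℕ × Bool => p.2.2) (f := fun p => p.1.2)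
      (g := fun _ => 0) (by fun_prop) (by fun_prop) (by fun_prop)).of_eq
      (fun p => by cases p.2.2 <;> rfl)
  refine PTF.of_eq (PTF.foldl (l := fun p : ℕ × ℕ => p.1.bits.reverse)
    (f := fun p r b => Nat.bit false r + (if b then p.2 else 0)) (b := fun _ => 0)
    hl hstep (PTF.const _) (B := fun p => sz p.1 + sz p.2) ?_ (fun c i hi => ?_))
    (fun p => mul_eq p.1 p.2)
  · exact PB.add PTF.fst.sz PTF.snd.sz
  · rw [mul_foldl]
    simp only [zero_mul, zero_add, sz_nat]
    refine (size_mul_le _ _).trans (Nat.add_le_add_right ?_ _)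
    refine Nat.size_le_size ?_
    have := msb_take_le c.1.bits.reverse i
    rwa [msb_bits_reverse] at this

/-! ### division -/

theorem divStep_size (y : ℕ) (l : List Bool) :
    (l.foldl (divStep y) (0, 0)).1.size ≤ l.length ∧
      (l.foldl (divStep y) (0, 0)).2.size ≤ l.length := by
  induction l using List.reverseRecOn with
  | nil => simp
  | append_singleton l b ih =>
    rw [List.foldl_append, List.foldl_cons, List.foldl_nil, List.length_append, List.length_singleton]
    generalize l.foldl (divStep y) (0, 0) = s at ih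
    rw [divStep]
    have h1 := size_bit_le true s.1
    have h2 := size_bit_le false s.1
    have h3 := size_bit_le b s.2
    have h4 : (Nat.bit b s.2 - y).size ≤ (Nat.bit b s.2).size := Nat.size_le_size (Nat.sub_le _ _)
    split_ifs <;> constructor <;> simp only <;> omega

theorem ptf_divMod : PTF (fun p : ℕ × ℕ => (p.1 / p.2, p.1 % p.2)) := by
  have hl : PTF (fun p : ℕ × ℕ => p.1.bits.reverse) :=
    PTF.comp (g := fun n : ℕ => n.bits.reverse) ptf_bitsRev PTF.fst
  have hbit : PTF (fun p : (ℕ × ℕ) × (ℕ × ℕ) × Bool => Nat.bit p.2.2 p.2.1.2) :=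
    PTF.comp₂ ptf_bit (by fun_prop) (by fun_prop)
  have hstep : PTF (fun p : (ℕ × ℕ) × (ℕ × ℕ) × Bool => divStep p.1.2 p.2.1 p.2.2) := by
    refine PTF.ite (PTPred.natLe (by fun_prop) hbit) (PTF.prodMk ?_ (PTF.natSub hbit (by fun_prop)))
      (PTF.prodMk ?_ hbit)
    · exact PTF.comp ptf_bitTrue (by fun_prop)
    · exact PTF.comp ptf_bitFalse (by fun_prop)
  have h := PTF.foldl (l := fun p : ℕ × ℕ => p.1.bits.reverse)
    (f := fun p s b => divStep p.2 s b) (b := fun _ => ((0, 0) : ℕ × ℕ))
    hl hstep (PTF.const _) (B := fun p => 2 * sz p.1 + 1 + sz p.1) (by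
      have : PB (fun p : ℕ × ℕ => sz p.1) := PTF.fst.sz
      fun_prop) (fun c i hi => by
      have h1 := divStep_size c.2 (c.1.bits.reverse.take i)
      change sz (List.foldl (divStep c.2) (0, 0) (c.1.bits.reverse.take i)) ≤ _
      rw [sz_prod]
      simp only [sz_nat]
      rw [List.length_take, List.length_reverse, Nat.size_eq_bits_len] at h1
      omega)
  have h0 : PTPred (fun p : ℕ × ℕ => p.2 = 0) := PTPred.natEq (by fun_prop) (by fun_prop)
  refine PTF.of_eq (PTF.ite h0 (f := fun p => ((0, p.1) : ℕ × ℕ)) (by fun_prop) h) (fun p => ?_)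
  split_ifs with hp
  · simp [hp]
  · exact div_mod_eq p.1 p.2 (Nat.pos_of_ne_zero hp)

end Arith

section api

variable {α β γ : Type} [PTCode α] [PTCode β] [PTCode γ] {f g : α → ℕ}

@[fun_prop]
protected theorem PTF.natMul (hf : PTF f) (hg : PTF g) : PTF (fun a => f a * g a) :=
  PTF.comp Arith.ptf_mul (PTF.prodMk hf hg)

@[fun_prop]
protected theorem PTF.natDiv (hf : PTF f) (hg : PTF g) : PTF (fun a => f a / g a) :=
  PTF.comp PTF.fst (PTF.comp Arith.ptf_divMod (PTF.prodMk hf hg))

@[fun_prop]
protected theorem PTF.natMod (hf : PTF f) (hg : PTF g) : PTF (fun a => f a % g a) :=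
  PTF.comp PTF.snd (PTF.comp Arith.ptf_divMod (PTF.prodMk hf hg))

protected theorem PTPred.natDvd (hf : PTF f) (hg : PTF g) : PTPred (fun a => f a ∣ g a) :=
  (PTPred.natEq (PTF.natMod hg hf) (PTF.const 0)).of_iff
    (fun _ => (Nat.dvd_iff_mod_eq_zero ..).symm)

@[fun_prop]
protected theorem PTF.natMax (hf : PTF f) (hg : PTF g) : PTF (fun a => max (f a) (g a)) :=
  (PTF.ite (PTPred.natLe hf hg) hg hf).of_eq (fun _ => (max_def _ _).symm)

@[fun_prop]
protected theorem PTF.natMin (hf : PTF f) (hg : PTF g) : PTF (fun a => min (f a) (g a)) :=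
  (PTF.ite (PTPred.natLe hf hg) hf hg).of_eq (fun _ => (min_def _ _).symm)

end api

namespace Arith

variable {α β γ : Type} [PTCode α] [PTCode β] [PTCode γ]

/-! ### gcd -/

theorem ptf_gcd : PTF (fun p : ℕ × ℕ => Nat.gcd p.1 p.2) := by
  have hstep : PTF₂ (fun (_ : ℕ × ℕ) (s : ℕ × ℕ) => gcdStep s) := by
    refine PTF.ite (PTPred.natEq (by fun_prop) (by fun_prop)) (by fun_prop) (by fun_prop)
  have hn : PTF (fun p : ℕ × ℕ => Un.mk (2 * p.2.size)) :=
    PTU.mul (PTU.const 2) (ptu_size PTF.snd)
  have h := PTF.iterate' (n := fun p : ℕ × ℕ => 2 * p.2.size) (f := fun _ s => gcdStep s)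
    (a := fun p => p) hn hstep PTF.id (B := fun p => 3 * (sz p.1 + sz p.2) + 1) (by
      have : PB (fun p : ℕ × ℕ => sz p.1) := PTF.fst.sz
      have : PB (fun p : ℕ × ℕ => sz p.2) := PTF.snd.sz
      fun_prop) (fun p i _ => by
      have h1 := gcdStep_iter_max_le i p
      have h2 : max p.1 p.2 < 2 ^ (p.1.size + p.2.size) := by
        refine max_lt ?_ ?_
        · exact (Nat.lt_size_self _).trans_le (Nat.pow_le_pow_right (by norm_num) (by omega))
        · exact (Nat.lt_size_self _).trans_le (Nat.pow_le_pow_right (by norm_num) (by omega))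
      have h3 := Nat.size_le.2 (h1.1.trans_lt h2)
      have h4 := Nat.size_le.2 (h1.2.trans_lt h2)
      change sz (gcdStep^[i] p) ≤ _
      rw [sz_prod]
      simp only [sz_nat]
      omega)
  exact PTF.of_eq (PTF.comp PTF.fst h) (fun p => gcd_eq p.1 p.2)

/-! ### powers -/

theorem size_pow_le (x k : ℕ) : (x ^ k).size ≤ k * x.size + 1 := by
  induction k with
  | zero => simp
  | succ k ih =>
    rw [pow_succ]
    have := size_mul_le (x ^ k) x
    have h : (k + 1) * x.size = k * x.size + x.size := by ring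
    omega

theorem ptf_pow {f k : α → ℕ} (hf : PTF f) (hk : PTU k) : PTF (fun a => f a ^ k a) := by
  have hstep : PTF₂ (fun (a : α) (r : ℕ) => r * f a) :=
    PTF.natMul PTF.snd (PTF.comp hf PTF.fst)
  have key : ∀ (a : α) (i : ℕ), (fun r : ℕ => r * f a)^[i] 1 = f a ^ i := by
    intro a i
    induction i with
    | zero => rfl
    | succ i ih => rw [Function.iterate_succ_apply', ih, pow_succ]
  have h := PTF.iterate' (n := k) (f := fun a r => r * f a) (a := fun _ => 1) hk hstep
    (PTF.const _) (B := fun a => k a * sz (f a) + 1) (by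
      have := hk.pb
      have := hf.sz
      fun_prop) (fun a i hi => by
      rw [key, sz_nat, sz_nat]
      have h1 := size_pow_le (f a) i
      have h2 := Nat.mul_le_mul_right (f a).size hi
      omega)
  exact PTF.of_eq h (fun a => key a _)

theorem ptf_powMod {f e m : α → ℕ} (hf : PTF f) (he : PTF e) (hm : PTF m) :
    PTF (fun a => f a ^ e a % (max (m a) 1)) := by
  have hl : PTF (fun a => (e a).bits.reverse) :=
    PTF.comp (g := fun n : ℕ => n.bits.reverse) ptf_bitsRev he
  have hM : PTF (fun a => max (m a) 1) := by fun_prop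
  have hstep : PTF (fun p : α × ℕ × Bool =>
      powModStep (f p.1) (max (m p.1) 1) p.2.1 p.2.2) := by
    have h1 : PTF (fun p : α × ℕ × Bool => f p.1) := PTF.comp hf PTF.fst
    have h2 : PTF (fun p : α × ℕ × Bool => max (m p.1) 1) := PTF.comp hM PTF.fst
    have h3 : PTF (fun p : α × ℕ × Bool => p.2.1) := by fun_prop
    have h4 : PTF (fun p : α × ℕ × Bool => p.2.2) := by fun_prop
    exact (PTF.cond h4 (PTF.natMod (PTF.natMul (PTF.natMod (PTF.natMul h3 h3) h2) h1) h2)
      (PTF.natMod (PTF.natMul h3 h3) h2)).of_eq (fun p => by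
        rw [powModStep]; cases p.2.2 <;> rfl)
  have h := PTF.foldl (l := fun a => (e a).bits.reverse)
    (f := fun a r b => powModStep (f a) (max (m a) 1) r b) (b := fun a => 1 % (max (m a) 1))
    hl hstep (PTF.natMod (PTF.const 1) hM) (B := fun a => sz (max (m a) 1)) hM.sz (fun a i hi => by
      have h1 := powMod_prefix_lt (f a) (max (m a) 1) (by omega) ((e a).bits.reverse.take i)
      simp only [sz_nat]
      exact Nat.size_le_size h1.le)
  exact PTF.of_eq h (fun _ => powMod_eq _ _ _)

/-! ### unary and binary numbers -/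

theorem ptf_ofUnary {k : α → ℕ} (hk : PTU k) : PTF k := by
  have hstep : PTF₂ (fun (_ : α) (r : ℕ) => r + 1) := PTF.natAdd PTF.snd (PTF.const 1)
  have key : ∀ i : ℕ, (fun r : ℕ => r + 1)^[i] 0 = i := by
    intro i
    induction i with
    | zero => rfl
    | succ i ih => rw [Function.iterate_succ_apply', ih]
  have h := PTF.iterate' (n := k) (f := fun (_ : α) r => r + 1) (a := fun _ => 0) hk hstep
    (PTF.const _) (B := k) hk.pb (fun a i hi => by
      rw [key, sz_nat]
      have h1 : i < 2 ^ i := Nat.lt_two_pow_self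
      exact (Nat.size_le.2 h1).trans hi)
  exact PTF.of_eq h (fun _ => key _)

/-- `min` of a binary and a unary number, in unary -/
theorem ptu_min {f k : α → ℕ} (hf : PTF f) (hk : PTU k) : PTU (fun a => min (f a) (k a)) := by
  have hstep : PTF₂ (fun (_ : α) (s : ℕ × Un) => (s.1 - 1, Un.mk (if s.1 = 0 then s.2.val
      else s.2.val + 1))) := by
    refine PTF.prodMk (by fun_prop) (PTU.ite ?_ (PTU.val (by fun_prop))
      (PTU.succ (PTU.val (by fun_prop))))
    exact PTPred.natEq (by fun_prop) (by fun_prop)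
  have key : ∀ (n i : ℕ), (fun s : ℕ × Un => (s.1 - 1, Un.mk (if s.1 = 0 then s.2.val
      else s.2.val + 1)))^[i] (n, Un.mk 0) = (n - i, Un.mk (min n i)) := by
    intro n i
    induction i with
    | zero => simp
    | succ i ih =>
      rw [Function.iterate_succ_apply', ih]
      simp only [Prod.mk.injEq, Un.mk.injEq]
      refine ⟨by omega, ?_⟩
      split_ifs <;> omega
  have h := PTF.iterate' (n := k) (f := fun (_ : α) (s : ℕ × Un) =>
    (s.1 - 1, Un.mk (if s.1 = 0 then s.2.val else s.2.val + 1)))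
    (a := fun a => (f a, Un.mk 0)) hk hstep (PTF.prodMk hf (PTF.const _))
    (B := fun a => 2 * sz (f a) + 1 + k a) (by
      have := hk.pb
      have := hf.sz
      fun_prop) (fun a i hi => by
      rw [key, sz_prod, sz_un, sz_nat, sz_nat]
      have h1 : (f a - i).size ≤ (f a).size := Nat.size_le_size (Nat.sub_le _ _)
      have h2 : min (f a) i ≤ i := min_le_right _ _
      simp only
      omega)
  exact PTF.of_eq (PTF.comp PTF.snd h) (fun a => by rw [key])

end Arith

section api

variable {α β γ : Type} [PTCode α] [PTCode β] [PTCode γ] {f g h : α → ℕ}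

@[fun_prop]
protected theorem PTF.natGcd (hf : PTF f) (hg : PTF g) : PTF (fun a => Nat.gcd (f a) (g a)) :=
  PTF.comp Arith.ptf_gcd (PTF.prodMk hf hg)

@[fun_prop]
protected theorem PTF.natLcm (hf : PTF f) (hg : PTF g) : PTF (fun a => Nat.lcm (f a) (g a)) :=
  PTF.natDiv (PTF.natMul hf hg) (PTF.natGcd hf hg)

protected theorem PTPred.natCoprime (hf : PTF f) (hg : PTF g) :
    PTPred (fun a => Nat.Coprime (f a) (g a)) :=
  PTPred.natEq (PTF.natGcd hf hg) (PTF.const 1)

/-- powers with unary exponent -/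
protected theorem PTF.natPow (hf : PTF f) (hg : PTU g) : PTF (fun a => f a ^ g a) :=
  Arith.ptf_pow hf hg

@[fun_prop]
protected theorem PTF.natPowConst (hf : PTF f) (k : ℕ) : PTF (fun a => f a ^ k) :=
  Arith.ptf_pow hf (PTU.const k)

/-- `2 ^ k` in binary, `k` unary -/
protected theorem PTF.natTwoPow (hg : PTU g) : PTF (fun a => 2 ^ g a) :=
  Arith.ptf_pow (PTF.const 2) hg

/-- modular exponentiation; all three arguments in binary -/
protected theorem PTF.natPowMod (hf : PTF f) (hg : PTF g) (hh : PTF h) (hpos : ∀ a, 0 < h a) :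
    PTF (fun a => f a ^ g a % h a) :=
  (Arith.ptf_powMod hf hg hh).of_eq (fun a => by rw [max_eq_left (hpos a)])

/-- modular exponentiation, total version -/
protected theorem PTF.natPowMod' (hf : PTF f) (hg : PTF g) (hh : PTF h) :
    PTF (fun a => if h a = 0 then 0 else f a ^ g a % h a) :=
  (PTF.ite (PTPred.natEq hh (PTF.const 0)) (PTF.const 0) (Arith.ptf_powMod hf hg hh)).of_eq
    (fun a => by
      split_ifs with h0
      · rfl
      · rw [max_eq_left (Nat.pos_of_ne_zero h0)])

/-- unary to binary -/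
protected theorem PTU.toPTF (hf : PTU f) : PTF f := Arith.ptf_ofUnary hf

/-- binary to unary, if the value is polynomially bounded -/
protected theorem PTF.toPTU (hf : PTF f) (hb : PB f) : PTU f := by
  obtain ⟨g, hg, h⟩ := hb.exists_ptu
  exact (Arith.ptu_min hf hg).of_eq (fun a => min_eq_left (h a))

/-- `min` of a binary and a unary number is a unary number -/
protected theorem PTF.natMinUn (hf : PTF f) (hg : PTU g) : PTU (fun a => min (f a) (g a)) :=
  Arith.ptu_min hf hg

/-- bit length, in unary -/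
protected theorem PTF.natSizeUn (hf : PTF f) : PTU (fun a => (f a).size) := Arith.ptu_size hf

@[fun_prop]
protected theorem PTF.natSize (hf : PTF f) : PTF (fun a => (f a).size) :=
  (Arith.ptu_size hf).toPTF

@[fun_prop]
protected theorem PTF.natLog2 (hf : PTF f) : PTF (fun a => (f a).log2) :=
  (PTF.natSub hf.natSize (PTF.const 1)).of_eq (fun a => by
    rcases Nat.eq_zero_or_pos (f a) with h | h
    · simp [h]
    · have h1 : (f a).size = (f a).log2 + 1 := by
        refine le_antisymm (Nat.size_le.2 Nat.lt_log2_self) ?_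
        rw [Nat.succ_le_iff, Nat.lt_size]
        exact Nat.log2_self_le h.ne'
      omega)

protected theorem PTF.natShiftLeft (hf : PTF f) (hg : PTU g) : PTF (fun a => f a <<< g a) :=
  (PTF.natMul hf (PTF.natTwoPow hg)).of_eq (fun _ => (Nat.shiftLeft_eq _ _).symm)

@[fun_prop]
protected theorem PTF.natShiftRight (hf : PTF f) (hg : PTF g) : PTF (fun a => f a >>> g a) :=
  (PTF.natDiv hf (PTF.natTwoPow (PTF.natMinUn hg hf.natSizeUn))).of_eq (fun a => by
    rw [Nat.shiftRight_eq_div_pow]
    rcases le_total (g a) (f a).size with h | h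
    · rw [min_eq_left h]
    · rw [min_eq_right h, Nat.div_eq_of_lt (Nat.lt_size_self _), Nat.div_eq_of_lt]
      exact (Nat.lt_size_self _).trans_le (Nat.pow_le_pow_right (by norm_num) h))

@[fun_prop]
protected theorem PTF.natTestBit (hf : PTF f) (hg : PTF g) : PTF (fun a => (f a).testBit (g a)) :=
  (PTPred.natEq (PTF.natMod (PTF.natShiftRight hf hg) (PTF.const 2)) (PTF.const 1)).toPTF.of_eq
    (fun a => by
      rw [Nat.testBit_eq_decide_div_mod_eq, Nat.shiftRight_eq_div_pow])

end api

end Crest.Agent.Lib.PT
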