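import Crest.Agent.Lib.PT.Iter

/-!
# Poly-time list functions
-/

set_option linter.dupNamespace false

namespace Crest.Agent.Lib.PT

section lists

variable {α β γ δ : Type} [PTCode α] [PTCode β] [PTCode γ] [PTCode δ]

omit [PTCode α] [PTCode β] in
/-- `acc ↦ (l.map f).reverse ++ acc` -/
theorem foldl_cons_map (f : α → β) (l : List α) (acc : List β) :
    l.foldl (fun acc a => f a :: acc) acc = (l.map f).reverse ++ acc := by
  induction l generalizing acc with
  | nil => rfl
  | cons a l ih => simp [ih]

@[fun_prop]
protected theorem PTF.reverseAux' {l : γ → List α} {l' : γ → List α} (hl : PTF l) (hl' : PTF l') :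
    PTF (fun c => (l c).reverse ++ l' c) := by
  refine PTF.of_eq (PTF.foldl (f := fun _ acc a => a :: acc) hl (by fun_prop) hl'
    (B := fun c => sz (l c) + sz (l' c)) (by have := hl.sz; have := hl'.sz; fun_prop) ?_)
    (fun c => by simp)
  intro c i _
  have h := foldl_cons_map (fun a : α => a) ((l c).take i) (l' c)
  simp only [List.map_id'] at h
  rw [h, sz_append, sz_reverse]
  have := sz_take_le (l c) i
  omega

@[fun_prop]
protected theorem PTF.reverse {l : γ → List α} (hl : PTF l) : PTF (fun c => (l c).reverse) :=
  PTF.of_eq (PTF.reverseAux' hl (PTF.const [])) (fun c => by simp)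

@[fun_prop]
protected theorem PTF.append {l : γ → List α} {l' : γ → List α} (hl : PTF l) (hl' : PTF l') :
    PTF (fun c => l c ++ l' c) :=
  PTF.of_eq (PTF.reverseAux' (PTF.reverse hl) hl') (fun c => by simp)

/-- map with parameter -/
protected theorem PTF.map {l : γ → List α} {f : γ → α → β} (hl : PTF l) (hf : PTF₂ f) :
    PTF (fun c => (l c).map (f c)) := by
  obtain ⟨p, hp⟩ := hf.bound
  have h : PTF (fun c => (l c).foldl (fun acc a => f c a :: acc) []) := by
    refine PTF.foldl (f := fun c acc a => f c a :: acc) hl ?_ (PTF.const [])
      (B := fun c => sz (l c) * (2 * p.eval (2 * sz c + 1 + sz (l c)) + 1)) ?_ ?_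
    · fun_prop
    · have h1 := hl.sz
      have h2 : PB (fun c => p.eval (2 * sz c + 1 + sz (l c))) := PB.eval p (by fun_prop)
      fun_prop
    · intro c i _
      rw [foldl_cons_map]
      simp only [List.append_nil, sz_reverse]
      refine (sz_list_le (m := p.eval (2 * sz c + 1 + sz (l c))) ?_).trans ?_
      · intro b hb
        obtain ⟨a, ha, rfl⟩ := List.mem_map.1 hb
        have h1 := hp (c, a)
        simp only [sz_prod] at h1
        have h2 : sz a ≤ sz (l c) := sz_mem_le (List.mem_of_mem_take ha)
        exact h1.trans (eval_mono p (by omega))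
      · refine Nat.mul_le_mul_right _ ?_
        simp only [List.length_map, List.length_take]
        exact (Nat.min_le_right _ _).trans (length_le_sz _)
  refine PTF.of_eq (PTF.reverse h) (fun c => ?_)
  rw [foldl_cons_map]
  simp

/-- right fold with parameter; bound on the sizes of the partial results -/
protected theorem PTF.foldr {l : γ → List α} {f : γ → α → β → β} {b : γ → β} (hl : PTF l)
    (hf : PTF (fun p : γ × α × β => f p.1 p.2.1 p.2.2)) (hb : PTF b) {B : γ → ℕ} (hB : PB B)
    (hbd : ∀ c, ∀ i ≤ (l c).length, sz (((l c).drop i).foldr (f c) (b c)) ≤ B c) :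
    PTF (fun c => (l c).foldr (f c) (b c)) := by
  have h : PTF (fun c => ((l c).reverse).foldl (fun b a => f c a b) (b c)) := by
    refine PTF.foldl (f := fun c b a => f c a b) (PTF.reverse hl) ?_ hb hB ?_
    · exact PTF.comp (g := fun q : γ × α × β => f q.1 q.2.1 q.2.2)
        (f := fun p : γ × β × α => (p.1, p.2.2, p.2.1)) hf (by fun_prop)
    · intro c i hi
      have h1 := hbd c ((l c).length - i) (Nat.sub_le _ _)
      have h2 : ((l c).reverse.take i) = ((l c).drop ((l c).length - i)).reverse := by
        rw [List.take_reverse]
      rw [h2, List.foldl_reverse]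
      exact h1
  exact PTF.of_eq h (fun c => by rw [List.foldl_reverse])

/-- filterMap with parameter -/
protected theorem PTF.filterMap {l : γ → List α} {f : γ → α → Option β} (hl : PTF l)
    (hf : PTF₂ f) : PTF (fun c => (l c).filterMap (f c)) := by
  have key : ∀ (f : α → Option β) (l : List α), l.foldr (fun a acc =>
      match f a with
      | none => acc
      | some b => b :: acc) [] = l.filterMap f := by
    intro f l
    induction l with
    | nil => rfl
    | cons a l ih =>
      simp only [List.foldr_cons, ih, List.filterMap_cons]
      cases f a <;> rfl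
  obtain ⟨p, hp⟩ := hf.bound
  have h : PTF (fun c => (l c).foldr (fun a acc =>
      match f c a with
      | none => acc
      | some b => b :: acc) []) := by
    refine PTF.foldr (f := fun c a acc =>
      match f c a with
      | none => acc
      | some b => b :: acc) hl ?_ (PTF.const [])
      (B := fun c => sz (l c) * (2 * p.eval (2 * sz c + 1 + sz (l c)) + 1)) ?_ ?_
    · exact PTF.optionCasesOn (s := fun q : γ × α × List β => f q.1 q.2.1)
        (by fun_prop) (f := fun q => q.2.2)
        (g := fun q b => b :: q.2.2) (by fun_prop) (by pt_prop)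
    · have h1 := hl.sz
      have h2 : PB (fun c => p.eval (2 * sz c + 1 + sz (l c))) := PB.eval p (by fun_prop)
      fun_prop
    · intro c i _
      rw [key]
      refine (sz_list_le (m := p.eval (2 * sz c + 1 + sz (l c))) ?_).trans ?_
      · intro b hb
        obtain ⟨a, ha, hab⟩ := List.mem_filterMap.1 hb
        have h1 := hp (c, a)
        simp only [sz_prod, hab, sz_some] at h1
        have h2 : sz a ≤ sz (l c) := sz_mem_le (List.mem_of_mem_drop ha)
        have h3 := eval_mono p (m := 2 * sz c + 1 + sz a) (n := 2 * sz c + 1 + sz (l c)) (by omega)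
        omega
      · refine Nat.mul_le_mul_right _ ?_
        refine (List.length_filterMap_le _ _).trans ?_
        refine le_trans ?_ (length_le_sz (l c))
        simp
  exact PTF.of_eq h (fun c => key (f c) (l c))

protected theorem PTF.filter {l : γ → List α} {p : γ → α → Bool} (hl : PTF l) (hp : PTF₂ p) :
    PTF (fun c => (l c).filter (p c)) := by
  have h := PTF.filterMap (f := fun c a => bif p c a then some a else none) hl (by
    refine PTF.cond (c := fun q : γ × α => p q.1 q.2) hp ?_ (PTF.const none)
    fun_prop)
  refine PTF.of_eq h (fun c => ?_)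
  rw [← List.filterMap_eq_filter]
  congr 1
  funext a
  cases h : p c a <;> simp [Option.guard, h]

protected theorem PTF.flatten {l : γ → List (List α)} (hl : PTF l) :
    PTF (fun c => (l c).flatten) := by
  have key : ∀ l : List (List α), l.foldr (fun a acc => a ++ acc) [] = l.flatten := by
    intro l
    induction l with
    | nil => rfl
    | cons a l ih => simp [ih]
  have key2 : ∀ l : List (List α), sz l.flatten ≤ sz l := by
    intro l
    induction l with
    | nil => simp
    | cons a l ih => simp [sz_append]; omega
  have h := PTF.foldr (f := fun (_ : γ) (a : List α) acc => a ++ acc) (b := fun _ => []) hl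
    (by fun_prop) (PTF.const []) (B := fun c => sz (l c)) hl.sz (by
      intro c i _
      rw [key]
      exact (key2 _).trans (sz_drop_le _ _))
  exact PTF.of_eq h (fun c => key (l c))

protected theorem PTF.flatMap {l : γ → List α} {f : γ → α → List β} (hl : PTF l) (hf : PTF₂ f) :
    PTF (fun c => (l c).flatMap (f c)) :=
  PTF.of_eq (PTF.flatten (PTF.map hl hf)) (fun c => by rw [List.flatMap])

protected theorem PTF.any {l : γ → List α} {p : γ → α → Bool} (hl : PTF l) (hp : PTF₂ p) :
    PTF (fun c => (l c).any (p c)) := by
  have h := PTF.foldl (f := fun (c : γ) (b : Bool) (a : α) => b || p c a) (b := fun _ => false) hl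
    (by fun_prop) (PTF.const _) (B := fun _ => 1) (PB.const 1) (by intro c i _; simp)
  refine PTF.of_eq h (fun c => ?_)
  have key : ∀ (l : List α) (b : Bool), l.foldl (fun b a => b || p c a) b = (b || l.any (p c)) := by
    intro l
    induction l with
    | nil => intro b; simp
    | cons a l ih => intro b; simp [ih, Bool.or_assoc]
  rw [key]; simp

protected theorem PTF.all {l : γ → List α} {p : γ → α → Bool} (hl : PTF l) (hp : PTF₂ p) :
    PTF (fun c => (l c).all (p c)) := by
  have h := PTF.not (PTF.any (p := fun c a => !p c a) hl (PTF.not hp))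
  refine PTF.of_eq h (fun c => ?_)
  rw [List.any_eq_not_all_not]
  simp

protected theorem PTPred.exists_mem {l : γ → List α} {p : γ → α → Prop} (hl : PTF l)
    (hp : PTPred (fun q : γ × α => p q.1 q.2)) : PTPred (fun c => ∃ a ∈ l c, p c a) := by
  classical
  exact ⟨_, PTF.any (p := fun c a => decide (p c a)) hl hp.toPTF, fun a => by simp⟩

protected theorem PTPred.forall_mem {l : γ → List α} {p : γ → α → Prop} (hl : PTF l)
    (hp : PTPred (fun q : γ × α => p q.1 q.2)) : PTPred (fun c => ∀ a ∈ l c, p c a) := by
  classical
  exact ⟨_, PTF.all (p := fun c a => decide (p c a)) hl hp.toPTF, fun a => by simp⟩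

/-- first element with a property -/
protected theorem PTF.find? {l : γ → List α} {p : γ → α → Bool} (hl : PTF l) (hp : PTF₂ p) :
    PTF (fun c => (l c).find? (p c)) := by
  refine PTF.of_eq (PTF.head? (PTF.filter hl hp)) (fun c => ?_)
  rw [List.head?_filter]

/-- replicate with unary count -/
protected theorem PTF.replicate {n : γ → ℕ} {a : γ → α} (hn : PTU n) (ha : PTF a) :
    PTF (fun c => List.replicate (n c) (a c)) := by
  have key : ∀ (c : γ) (i : ℕ), (fun l => a c :: l)^[i] [] = List.replicate i (a c) := by
    intro c i
    induction i with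
    | zero => rfl
    | succ i ih => rw [Function.iterate_succ_apply', ih]; rfl
  have h := PTF.iterate' (f := fun (c : γ) (l : List α) => a c :: l) (a := fun _ => []) hn
    (by pt_prop) (PTF.const [])
    (B := fun c => n c * (2 * sz (a c) + 1)) (by
      have h1 := hn.pb
      have h2 := ha.sz
      fun_prop) (fun c i hi => by
      rw [key]
      refine (sz_list_le (m := sz (a c)) ?_).trans ?_
      · intro b hb; rw [List.eq_of_mem_replicate hb]
      · simp only [List.length_replicate]
        exact Nat.mul_le_mul_right _ hi)
  exact PTF.of_eq h (fun c => key c _)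

/-- drop with unary count -/
protected theorem PTF.drop {n : γ → ℕ} {l : γ → List α} (hn : PTU n) (hl : PTF l) :
    PTF (fun c => (l c).drop (n c)) := by
  have key : ∀ (c : γ) (i : ℕ), (List.tail)^[i] (l c) = (l c).drop i := by
    intro c i
    induction i with
    | zero => rfl
    | succ i ih => rw [Function.iterate_succ_apply', ih, List.tail_drop]
  have h := PTF.iterate' (f := fun (_ : γ) (l : List α) => l.tail) (a := l) hn
    (by pt_prop) hl (B := fun c => sz (l c)) hl.sz (fun c i hi => by
      have := key c i
      rw [show (fun l : List α => l.tail) = List.tail from rfl, this]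
      exact sz_drop_le _ _)
  exact PTF.of_eq h (fun c => key c _)

protected theorem PTF.take {n : γ → ℕ} {l : γ → List α} (hn : PTU n) (hl : PTF l) :
    PTF (fun c => (l c).take (n c)) := by
  have h := PTF.reverse (PTF.drop (PTU.sub (PTU.length hl) hn) (PTF.reverse hl))
  refine PTF.of_eq h (fun c => ?_)
  rw [List.drop_reverse]
  simp only [List.reverse_reverse]
  rcases le_total (n c) (l c).length with h | h
  · congr 1; omega
  · rw [List.take_of_length_le h, List.take_of_length_le (by omega)]

/-- element access, unary index -/
protected theorem PTF.getElem? {n : γ → ℕ} {l : γ → List α} (hn : PTU n) (hl : PTF l) :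
    PTF (fun c => (l c)[n c]?) := by
  refine PTF.of_eq (PTF.head? (PTF.drop hn hl)) (fun c => ?_)
  rw [List.head?_drop]

protected theorem PTF.getD {n : γ → ℕ} {l : γ → List α} {d : γ → α} (hn : PTU n) (hl : PTF l)
    (hd : PTF d) : PTF (fun c => (l c).getD (n c) (d c)) := by
  refine PTF.of_eq (PTF.optionGetD (PTF.getElem? hn hl) hd) (fun c => ?_)
  rw [List.getD_eq_getElem?_getD]

/-- last element -/
protected theorem PTF.getLast? {l : γ → List α} (hl : PTF l) : PTF (fun c => (l c).getLast?) := by
  refine PTF.of_eq (PTF.head? (PTF.reverse hl)) (fun c => ?_)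
  rw [List.head?_reverse]

protected theorem PTF.zipWith {l : γ → List α} {l' : γ → List β} {f : γ → α → β → δ} (hl : PTF l)
    (hl' : PTF l') (hf : PTF (fun p : γ × α × β => f p.1 p.2.1 p.2.2)) :
    PTF (fun c => List.zipWith (f c) (l c) (l' c)) := by
  -- zip first: fold over `l` with state `(rest of l', acc)`
  have key : ∀ (l : List α) (l' : List β) (acc : List (α × β)),
      (l.foldl (fun (s : List β × List (α × β)) a =>
        match s.1 with
        | [] => ([], s.2)
        | b :: t => (t, (a, b) :: s.2)) (l', acc)) =
      (l'.drop l.length, (List.zip l l').reverse ++ acc) := by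
    intro l
    induction l with
    | nil => intro l' acc; simp
    | cons a l ih =>
      intro l' acc
      cases l' with
      | nil =>
        rw [List.foldl_cons]
        simp only
        rw [ih]
        simp
      | cons b l' =>
        rw [List.foldl_cons]
        simp only
        rw [ih]
        simp
  have hz : PTF (fun c => List.zip (l c) (l' c)) := by
    have h := PTF.foldl (f := fun (_ : γ) (s : List β × List (α × β)) (a : α) =>
        match s.1 with
        | [] => (([] : List β), s.2)
        | b :: t => (t, (a, b) :: s.2)) (b := fun c => (l' c, [])) hl (by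
          exact PTF.listCasesOn (s := fun q : γ × (List β × List (α × β)) × α => q.2.1.1)
            (f := fun q => (([] : List β), q.2.1.2))
            (g := fun q b t => (t, (q.2.2, b) :: q.2.1.2)) (by fun_prop) (by fun_prop)
            (by fun_prop)) (by fun_prop)
        (B := fun c => 2 * sz (l' c) + 1 +
          sz (l c) * (2 * (2 * sz (l c) + 1 + sz (l' c)) + 1)) (by
          have h1 := hl.sz
          have h2 := hl'.sz
          fun_prop) (by
          intro c i _
          rw [key]
          simp only [sz_prod, List.append_nil, sz_reverse]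
          have h1 := sz_drop_le (l' c) (List.take i (l c)).length
          have h2 : sz (List.zip (List.take i (l c)) (l' c)) ≤
              sz (l c) * (2 * (2 * sz (l c) + 1 + sz (l' c)) + 1) := by
            refine (sz_list_le (m := 2 * sz (l c) + 1 + sz (l' c)) ?_).trans ?_
            · intro q hq
              have h3 := List.of_mem_zip hq
              have h4 : sz q.1 ≤ sz (l c) := sz_mem_le (List.mem_of_mem_take h3.1)
              have h5 : sz q.2 ≤ sz (l' c) := sz_mem_le h3.2
              simp only [sz_prod]
              omega
            · refine Nat.mul_le_mul_right _ ?_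
              have := length_le_sz (l c)
              simp
              omega
          omega)
    refine PTF.of_eq (PTF.reverse (PTF.comp (g := fun s : List β × List (α × β) => s.2)
      (by fun_prop) h)) (fun c => ?_)
    rw [key]
    simp
  refine PTF.of_eq (PTF.map (f := fun c (q : α × β) => f c q.1 q.2) hz ?_) (fun c => ?_)
  · exact hf
  · rw [← List.map_uncurry_zip_eq_zipWith]
    rfl

protected theorem PTF.zip {l : γ → List α} {l' : γ → List β} (hl : PTF l) (hl' : PTF l') :
    PTF (fun c => List.zip (l c) (l' c)) :=
  PTF.of_eq (PTF.zipWith (f := fun _ a b => (a, b)) hl hl' (by fun_prop))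
    (fun c => by rw [List.zip])

end lists

/-! ### raw bit strings as lists -/

section bits

variable {α β γ δ : Type} [PTCode α] [PTCode β] [PTCode γ] [PTCode δ]

/-- case distinction on a raw bit string -/
protected theorem PTF.bitsCasesOn {s : α → Bits} {f : α → δ} {g : α → Bool → Bits → δ}
    (hs : PTF s) (hf : PTF f) (hg : PTF (fun p : α × Bool × Bits => g p.1 p.2.1 p.2.2)) :
    PTF (fun a => match (s a).val with | [] => f a | b :: l => g a b ⟨l⟩) := by
  obtain ⟨s', hs', hs⟩ := hs
  obtain ⟨f', hf', hf⟩ := hf
  obtain ⟨g', hg', hg⟩ := hg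
  refine ⟨_, PT.cases hs' hf'
    (PT.comp hg' (PT.pair PT.id (PT.pair (PT.const [true]) (PT.tail' hs'))))
    (PT.comp hg' (PT.pair PT.id (PT.pair (PT.const [false]) (PT.tail' hs')))), fun a => ?_⟩
  simp only [hs, enc_bits]
  rcases hx : (s a).val with _ | ⟨b, l⟩
  · simpa using hf a
  · have := hg (a, b, ⟨l⟩)
    cases b <;> simpa using this

/-- cons on raw bit strings -/
protected theorem PTF.bitsCons {b : α → Bool} {s : α → Bits} (hb : PTF b) (hs : PTF s) :
    PTF (fun a => Bits.mk (b a :: (s a).val)) := by
  obtain ⟨s', hs', hs⟩ := hs
  obtain ⟨b', hb', hb⟩ := hb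
  refine ⟨_, PT.ite hb' (PT.cons' true hs') (PT.cons' false hs'), fun a => ?_⟩
  simp only [hs, hb, enc_bool]
  cases b a <;> simp

theorem sz_listBool (l : List Bool) : sz l = 3 * l.length := by
  induction l with
  | nil => simp
  | cons b l ih => simp [ih]; ring

/-- read a raw string as a coded list of booleans -/
@[fun_prop]
protected theorem PTF.bitsVal {f : α → Bits} (hf : PTF f) : PTF (fun a => (f a).val) := by
  have hstep : PTF₂ (fun (_ : Bits) (s : Bits × List Bool) =>
      match s.1.val with
      | [] => ((⟨[]⟩ : Bits), s.2)
      | b :: t => ((⟨t⟩ : Bits), b :: s.2)) :=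
    PTF.bitsCasesOn (s := fun q : Bits × Bits × List Bool => q.2.1)
      (f := fun q => ((⟨[]⟩ : Bits), q.2.2)) (g := fun q b t => (t, b :: q.2.2))
      (by fun_prop) (by fun_prop) (by fun_prop)
  have key : ∀ (x acc : List Bool) (i : ℕ), (fun (s : Bits × List Bool) =>
      match s.1.val with
      | [] => ((⟨[]⟩ : Bits), s.2)
      | b :: t => ((⟨t⟩ : Bits), b :: s.2))^[i] (⟨x⟩, acc) =
      (⟨x.drop i⟩, (x.take i).reverse ++ acc) := by
    intro x acc i
    induction i generalizing x acc with
    | zero => simp
    | succ i ih =>
      rw [Function.iterate_succ_apply]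
      cases x with
      | nil =>
        have := ih [] acc
        simpa using this
      | cons b x =>
        have := ih x (b :: acc)
        simpa using this
  have h := PTF.iterate' (n := fun x : Bits => x.val.length)
    (a := fun x : Bits => (x, ([] : List Bool))) (PTU.sz (α := Bits)) hstep
    (by fun_prop) (B := fun x : Bits => 2 * sz x + 1 + 3 * sz x)
    (by fun_prop) (fun x i _ => by
      have h1 := key x.val [] i
      rw [h1]
      simp only [sz_prod, sz_bits, List.append_nil, sz_listBool, List.length_reverse,
        List.length_take, List.length_drop]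
      omega)
  have h2 : PTF (fun x : Bits => x.val) := by
    refine PTF.of_eq (PTF.reverse (PTF.comp (g := fun s : Bits × List Bool => s.2)
      (by fun_prop) h)) (fun x => ?_)
    have h1 := key x.val [] x.val.length
    rw [h1]
    simp
  exact PTF.comp h2 hf

/-- turn a coded list of booleans into a raw string -/
@[fun_prop]
protected theorem PTF.bitsMk {f : α → List Bool} (hf : PTF f) : PTF (fun a => Bits.mk (f a)) := by
  have key : ∀ x : List Bool, x.foldr (fun b (s : Bits) => Bits.mk (b :: s.val)) ⟨[]⟩ = ⟨x⟩ := by
    intro x
    induction x with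
    | nil => rfl
    | cons b x ih => rw [List.foldr_cons, ih]
  have h := PTF.foldr (l := f) (f := fun (_ : α) (b : Bool) (s : Bits) => Bits.mk (b :: s.val))
    (b := fun _ => ⟨[]⟩) hf
    (PTF.bitsCons (by fun_prop) (by fun_prop)) (PTF.const _) (B := fun a => sz (f a)) hf.sz (by
      intro c i _
      rw [key]
      simp only [sz_bits, sz_listBool, List.length_drop]
      omega)
  exact PTF.of_eq h (fun a => key (f a))

/-- a poly-time function on coded lists of booleans gives a raw poly-time function -/
theorem PTF.toPT_list {f : List Bool → List Bool} (hf : PTF f) : PT f := by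
  have h : PTF (fun x : Bits => Bits.mk (f x.val)) := by fun_prop
  exact PTF.toPT h

theorem PT.toPTF_list {f : List Bool → List Bool} (hf : PT f) : PTF f := by
  have h1 := hf.toPTF
  have h2 : PTF (fun x : List Bool => Bits.mk x) := PTF.bitsMk PTF.id
  exact PTF.bitsVal (PTF.comp (g := fun x : Bits => Bits.mk (f x.val))
    (f := fun x : List Bool => Bits.mk x) h1 h2)

/-- the code of an object, as a list of booleans -/
@[fun_prop]
protected theorem PTF.encode {f : α → β} (hf : PTF f) : PTF (fun a => enc (f a)) := by
  have h : PTF (fun a : β => (toBits a).val) := PTF.bitsVal PTF.toBits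
  exact PTF.comp h hf

end bits

/-! ### equality -/

section eq

variable {α β γ δ : Type} [PTCode α] [PTCode β] [PTCode γ] [PTCode δ]

/-- one step of the comparison of two strings -/
def eqStep (s : List Bool × List Bool) : List Bool × List Bool :=
  bif (bif s.1.isEmpty then s.2.isEmpty else (bif s.2.isEmpty then false else
    !(Bool.xor (s.1.head?.getD false) (s.2.head?.getD false)))) then (s.1.tail, s.2.tail) else s

theorem eqStep_iterate (x y : List Bool) (n : ℕ) (hx : x.length ≤ n) :
    eqStep^[n] (x, y) = ([], []) ↔ x = y := by
  induction n generalizing x y with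
  | zero =>
    have : x = [] := List.length_eq_zero_iff.1 (by omega)
    subst this
    simp [eq_comm]
  | succ n ih =>
    rw [Function.iterate_succ_apply]
    rcases x with _ | ⟨b, x⟩
    · rcases y with _ | ⟨b', y⟩
      · simpa [eqStep] using ih [] [] (by simp)
      · have := ih [] (b' :: y) (by simp)
        simpa [eqStep] using this
    · rcases y with _ | ⟨b', y⟩
      · have h1 : eqStep (b :: x, []) = (b :: x, []) := by simp [eqStep]
        rw [h1]
        have h2 : eqStep^[n] (b :: x, []) = (b :: x, []) := Function.iterate_fixed h1 n
        rw [h2]; simp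
      · by_cases hb : b = b'
        · subst hb
          have h1 : eqStep (b :: x, b :: y) = (x, y) := by simp [eqStep]
          rw [h1, ih x y (by simpa using hx)]
          simp
        · have h1 : eqStep (b :: x, b' :: y) = (b :: x, b' :: y) := by
            cases b <;> cases b' <;> simp [eqStep] at hb ⊢
          have h2 : eqStep^[n] (b :: x, b' :: y) = (b :: x, b' :: y) :=
            Function.iterate_fixed h1 n
          rw [h1, h2]; simp [hb]

protected theorem PTPred.eqListBool {f g : γ → List Bool} (hf : PTF f) (hg : PTF g) :
    PTPred (fun c => f c = g c) := by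
  have hstep : PTF₂ (fun (_ : γ) (s : List Bool × List Bool) => eqStep s) := by
    unfold eqStep
    pt_prop
  have hbound : ∀ (s : List Bool × List Bool) (i : ℕ), sz (eqStep^[i] s).1 ≤ sz s.1 ∧
      sz (eqStep^[i] s).2 ≤ sz s.2 := by
    intro s i
    induction i with
    | zero => simp
    | succ i ih =>
      rw [Function.iterate_succ_apply']
      generalize eqStep^[i] s = t at ih ⊢
      have h1 : sz (eqStep t).1 ≤ sz t.1 ∧ sz (eqStep t).2 ≤ sz t.2 := by
        unfold eqStep
        cases (bif t.1.isEmpty then t.2.isEmpty else (bif t.2.isEmpty then false else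
          !(Bool.xor (t.1.head?.getD false) (t.2.head?.getD false))))
        · simp
        · simp [sz_tail_le]
      omega
  have h := PTF.iterate' (f := fun (_ : γ) s => eqStep s) (a := fun c => (f c, g c))
    (PTU.length hf) hstep (by fun_prop) (B := fun c => 2 * sz (f c) + 1 + sz (g c)) (by
      fun_prop) (fun c i _ => by
      have := hbound (f c, g c) i
      change sz (eqStep^[i] (f c, g c)) ≤ _
      simp only [sz_prod] at this ⊢
      omega)
  refine ⟨_, PTF.and (PTF.isEmpty (PTF.comp PTF.fst h)) (PTF.isEmpty (PTF.comp PTF.snd h)),
    fun c => ?_⟩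
  change f c = g c ↔ ((eqStep^[(f c).length] (f c, g c)).1.isEmpty &&
    (eqStep^[(f c).length] (f c, g c)).2.isEmpty) = true
  rw [← eqStep_iterate (f c) (g c) (f c).length le_rfl]
  simp only [Bool.and_eq_true, List.isEmpty_iff]
  exact Prod.ext_iff

/-- equality of coded objects -/
protected theorem PTPred.eq {f g : γ → α} (hf : PTF f) (hg : PTF g) :
    PTPred (fun c => f c = g c) := by
  have h1 : PTF (fun c => enc (f c)) := by fun_prop
  have h2 : PTF (fun c => enc (g c)) := by fun_prop
  exact (PTPred.eqListBool h1 h2).of_iff (fun c => enc_inj)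

protected theorem PTF.beq [DecidableEq α] {f g : γ → α} (hf : PTF f) (hg : PTF g) :
    PTF (fun c => decide (f c = g c)) := (PTPred.eq hf hg).toPTF

protected theorem PTPred.mem {l : γ → List α} {f : γ → α} (hf : PTF f) (hl : PTF l) :
    PTPred (fun c => f c ∈ l c) := by
  refine (PTPred.exists_mem (p := fun c a => a = f c) hl
    (PTPred.eq PTF.snd (PTF.comp hf PTF.fst))).of_iff (fun c => by simp)

end eq

end Crest.Agent.Lib.PT
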