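import Crest.Agent.Lib.PT.ArithMore
import Crest.Agent.Lib.PT.ListFns

/-!
# Integer arithmetic is poly-time
-/

set_option linter.dupNamespace false
set_option autoImplicit false

namespace Crest.Agent.Lib.PT

/-- code of an integer: sign bit and absolute value -/
instance : PTCode ℤ := PTCode.ofInj (fun z : ℤ => (decide (z < 0), z.natAbs)) (by
  intro a b h
  simp only [Prod.mk.injEq, decide_eq_decide] at h
  omega)

theorem enc_int (z : ℤ) : enc z = enc (decide (z < 0), z.natAbs) := rfl

theorem sz_int (z : ℤ) : sz z = 3 + z.natAbs.size := by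
  have : sz z = sz (decide (z < 0), z.natAbs) := rfl
  rw [this, sz_prod, sz_bool, sz_nat]

namespace Arith

variable {α β γ : Type} [PTCode α] [PTCode β] [PTCode γ]

/-- integer from sign and absolute value -/
def mkInt (b : Bool) (n : ℕ) : ℤ := if b then -(n : ℤ) else n

theorem ptf_intNeg : PTF (fun z : ℤ => decide (z < 0)) :=
  ⟨_, PT.fst, fun z => by rw [enc_int, enc_prod]; simp⟩

theorem ptf_natAbs : PTF (fun z : ℤ => z.natAbs) :=
  ⟨_, PT.snd, fun z => by rw [enc_int, enc_prod]; simp⟩

theorem ptf_mkInt : PTF (fun p : Bool × ℕ => mkInt p.1 p.2) := by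
  have h : PTF (fun p : Bool × ℕ => (p.1 && !(decide (p.2 = 0)), p.2)) :=
    PTF.prodMk (PTF.and PTF.fst (PTPred.natEq (by fun_prop) (by fun_prop)).toPTF.not) PTF.snd
  obtain ⟨g, hg, hg'⟩ := h
  refine ⟨g, hg, fun p => ?_⟩
  rw [hg', enc_int]
  congr 1
  rcases p with ⟨b, n⟩
  rcases Nat.eq_zero_or_pos n with rfl | hn
  · simp [mkInt]
  · have h1 : decide (n = 0) = false := by simp; omega
    cases b
    · simp [mkInt]
    · simp only [h1, mkInt, Prod.mk.injEq]
      constructor
      · simp [hn]
      · simp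

theorem mkInt_eta (z : ℤ) : mkInt (decide (z < 0)) z.natAbs = z := by
  rw [mkInt]
  split_ifs with h
  · have : z < 0 := by simpa using h
    omega
  · have : ¬ z < 0 := by simpa using h
    omega

theorem add_formula (z w : ℤ) : (bif Bool.xor (decide (z < 0)) (decide (w < 0)) then
      (if w.natAbs ≤ z.natAbs then mkInt (decide (z < 0)) (z.natAbs - w.natAbs)
        else mkInt (decide (w < 0)) (w.natAbs - z.natAbs))
      else mkInt (decide (z < 0)) (z.natAbs + w.natAbs)) = z + w := by
  conv_rhs => rw [← mkInt_eta z, ← mkInt_eta w]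
  generalize z.natAbs = n
  generalize w.natAbs = m
  cases decide (z < 0) <;> cases decide (w < 0) <;> simp only [Bool.xor_self, Bool.xor_false,
    Bool.xor_true, Bool.not_false, cond_false, cond_true, mkInt, if_true, Bool.false_eq_true,
    if_false] <;> try split_ifs <;> omega
  all_goals omega

theorem emod_formula (z w : ℤ) : (if w.natAbs = 0 then z else
      bif decide (z < 0) then (if z.natAbs % w.natAbs = 0 then (0 : ℤ)
        else ((w.natAbs - z.natAbs % w.natAbs : ℕ) : ℤ))
      else ((z.natAbs % w.natAbs : ℕ) : ℤ)) = z % w := by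
  split_ifs with hw hr
  · have : w = 0 := by omega
    rw [this, Int.emod_zero]
  · have h1 : z % w = z % (w.natAbs : ℤ) := by
      rcases Int.natAbs_eq w with h | h
      · rw [← h]
      · conv_lhs => rw [h]
        rw [Int.emod_neg]
    rw [h1]
    have h2 : (z.natAbs : ℤ) = w.natAbs * (z.natAbs / w.natAbs : ℕ) := by
      have := Nat.mod_add_div z.natAbs w.natAbs
      rw [hr, zero_add] at this
      exact_mod_cast this.symm
    by_cases hz : z < 0
    · simp only [hz, decide_true, cond_true]
      have h3 : z = w.natAbs * -((z.natAbs / w.natAbs : ℕ) : ℤ) := by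
        rw [mul_neg, ← h2]; omega
      rw [h3, Int.mul_emod_right]
    · simp only [hz, decide_false, cond_false, hr]
      have h3 : z = w.natAbs * ((z.natAbs / w.natAbs : ℕ) : ℤ) := by
        rw [← h2]; omega
      rw [h3, Int.mul_emod_right]
      rfl
  · have h1 : z % w = z % (w.natAbs : ℤ) := by
      rcases Int.natAbs_eq w with h | h
      · rw [← h]
      · conv_lhs => rw [h]
        rw [Int.emod_neg]
    rw [h1]
    have h2 : (z.natAbs : ℤ) = (z.natAbs % w.natAbs : ℕ) + w.natAbs * (z.natAbs / w.natAbs : ℕ) := by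
      exact_mod_cast (Nat.mod_add_div z.natAbs w.natAbs).symm
    have h4 : z.natAbs % w.natAbs < w.natAbs := Nat.mod_lt _ (Nat.pos_of_ne_zero hw)
    by_cases hz : z < 0
    · simp only [hz, decide_true, cond_true]
      have h3 : z = ((w.natAbs - z.natAbs % w.natAbs : ℕ) : ℤ) +
          w.natAbs * (-((z.natAbs / w.natAbs : ℕ) : ℤ) - 1) := by
        rw [Nat.cast_sub h4.le, mul_sub, mul_one, mul_neg]
        omega
      conv_rhs => rw [h3]
      rw [Int.add_mul_emod_self_left, Int.emod_eq_of_lt (by omega) (by omega)]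
    · simp only [hz, decide_false, cond_false]
      have h3 : z = ((z.natAbs % w.natAbs : ℕ) : ℤ) +
          w.natAbs * ((z.natAbs / w.natAbs : ℕ) : ℤ) := by
        rw [← h2]; omega
      conv_rhs => rw [h3]
      rw [Int.add_mul_emod_self_left, Int.emod_eq_of_lt (by omega) (by omega)]

theorem mkInt_xor (b c : Bool) (n m : ℕ) : mkInt (Bool.xor b c) (n * m) = mkInt b n * mkInt c m := by
  cases b <;> cases c <;> simp [mkInt]

theorem ediv_formula (z w : ℤ) : mkInt (Bool.xor (decide (z - z % w < 0)) (decide (w < 0)))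
      ((z - z % w).natAbs / w.natAbs) = z / w := by
  rcases eq_or_ne w 0 with rfl | hw
  · simp [mkInt]
  have h1 : z - z % w = w * (z / w) := by
    have := Int.emod_add_mul_ediv z w
    linarith
  rw [h1, Int.natAbs_mul, Nat.mul_div_cancel_left _ (Int.natAbs_pos.2 hw)]
  set q := z / w
  rcases eq_or_ne q 0 with hq | hq
  · simp [hq, mkInt]
  · have h2 : Bool.xor (decide (w * q < 0)) (decide (w < 0)) = decide (q < 0) := by
      rcases lt_or_gt_of_ne hw with h | h <;> rcases lt_or_gt_of_ne hq with h' | h'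
      · have : 0 < w * q := mul_pos_of_neg_of_neg h h'
        rw [decide_eq_false (not_lt.2 this.le), decide_eq_true h, decide_eq_true h']; rfl
      · have : w * q < 0 := mul_neg_of_neg_of_pos h h'
        rw [decide_eq_true this, decide_eq_true h, decide_eq_false (not_lt.2 h'.le)]; rfl
      · have : w * q < 0 := mul_neg_of_pos_of_neg h h'
        rw [decide_eq_true this, decide_eq_false (not_lt.2 h.le), decide_eq_true h']; rfl
      · have : 0 < w * q := mul_pos h h'
        rw [decide_eq_false (not_lt.2 this.le), decide_eq_false (not_lt.2 h.le),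
          decide_eq_false (not_lt.2 h'.le)]; rfl
    rw [h2, mkInt_eta]

end Arith

section api

variable {α β γ : Type} [PTCode α] [PTCode β] [PTCode γ] {f g : α → ℤ}

protected theorem PTF.intIsNeg (hf : PTF f) : PTF (fun a => decide (f a < 0)) :=
  PTF.comp (g := fun z : ℤ => decide (z < 0)) Arith.ptf_intNeg hf

@[fun_prop]
protected theorem PTF.intNatAbs (hf : PTF f) : PTF (fun a => (f a).natAbs) :=
  PTF.comp (g := fun z : ℤ => z.natAbs) Arith.ptf_natAbs hf

protected theorem PTF.intMk {b : α → Bool} {n : α → ℕ} (hb : PTF b) (hn : PTF n) :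
    PTF (fun a => Arith.mkInt (b a) (n a)) :=
  PTF.comp (g := fun p : Bool × ℕ => Arith.mkInt p.1 p.2) Arith.ptf_mkInt (PTF.prodMk hb hn)

protected theorem PTPred.intNeg (hf : PTF f) : PTPred (fun a => f a < 0) :=
  PTPred.of_ptf hf.intIsNeg

@[fun_prop]
protected theorem PTF.intNatCast {f : α → ℕ} (hf : PTF f) : PTF (fun a => (f a : ℤ)) :=
  (PTF.intMk (PTF.const false) hf).of_eq (fun _ => rfl)

@[fun_prop]
protected theorem PTF.intNeg (hf : PTF f) : PTF (fun a => - f a) :=
  (PTF.intMk hf.intIsNeg.not hf.intNatAbs).of_eq (fun a => by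
    rw [Arith.mkInt]
    split_ifs with h
    · have : ¬ f a < 0 := by simpa using h
      omega
    · have : f a < 0 := by simpa using h
      omega)

@[fun_prop]
protected theorem PTF.intAdd (hf : PTF f) (hg : PTF g) : PTF (fun a => f a + g a) := by
  have h1 := hf.intIsNeg
  have h2 := hg.intIsNeg
  have h3 := hf.intNatAbs
  have h4 := hg.intNatAbs
  have h5 : PTPred (fun a => (g a).natAbs ≤ (f a).natAbs) := PTPred.natLe h4 h3
  have h := PTF.cond (PTF.xor h1 h2)
    (PTF.ite h5 (PTF.intMk h1 (PTF.natSub h3 h4)) (PTF.intMk h2 (PTF.natSub h4 h3)))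
    (PTF.intMk h1 (PTF.natAdd h3 h4))
  refine h.of_eq (fun a => ?_)
  exact Arith.add_formula (f a) (g a)

@[fun_prop]
protected theorem PTF.intSub (hf : PTF f) (hg : PTF g) : PTF (fun a => f a - g a) :=
  (PTF.intAdd hf hg.intNeg).of_eq (fun _ => (sub_eq_add_neg _ _).symm)

@[fun_prop]
protected theorem PTF.intMul (hf : PTF f) (hg : PTF g) : PTF (fun a => f a * g a) := by
  refine (PTF.intMk (PTF.xor hf.intIsNeg hg.intIsNeg) (PTF.natMul hf.intNatAbs hg.intNatAbs)).of_eq
    (fun a => ?_)
  conv_rhs => rw [← Arith.mkInt_eta (f a), ← Arith.mkInt_eta (g a)]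
  cases decide (f a < 0) <;> cases decide (g a < 0) <;> simp [Arith.mkInt]

protected theorem PTPred.intLt (hf : PTF f) (hg : PTF g) : PTPred (fun a => f a < g a) :=
  (PTPred.intNeg (PTF.intSub hf hg)).of_iff (fun _ => sub_neg)

protected theorem PTPred.intLe (hf : PTF f) (hg : PTF g) : PTPred (fun a => f a ≤ g a) :=
  (PTPred.intLt hg hf).not.of_iff (fun _ => not_lt)

protected theorem PTPred.intEq (hf : PTF f) (hg : PTF g) : PTPred (fun a => f a = g a) :=
  PTPred.eq hf hg

@[fun_prop]
protected theorem PTF.intToNat (hf : PTF f) : PTF (fun a => (f a).toNat) :=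
  (PTF.cond hf.intIsNeg (PTF.const 0) hf.intNatAbs).of_eq (fun a => by
    by_cases h : f a < 0
    · simp [h]; omega
    · simp [h]; omega)

@[fun_prop]
protected theorem PTF.intMax (hf : PTF f) (hg : PTF g) : PTF (fun a => max (f a) (g a)) :=
  (PTF.ite (PTPred.intLe hf hg) hg hf).of_eq (fun _ => (max_def _ _).symm)

@[fun_prop]
protected theorem PTF.intMin (hf : PTF f) (hg : PTF g) : PTF (fun a => min (f a) (g a)) :=
  (PTF.ite (PTPred.intLe hf hg) hf hg).of_eq (fun _ => (min_def _ _).symm)

@[fun_prop]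
protected theorem PTF.intAbs (hf : PTF f) : PTF (fun a => |f a|) :=
  (PTF.intNatCast hf.intNatAbs).of_eq (fun a => by rw [Int.natCast_natAbs])

@[fun_prop]
protected theorem PTF.intSign (hf : PTF f) : PTF (fun a => (f a).sign) := by
  have h0 : PTPred (fun a => f a = 0) := PTPred.intEq hf (PTF.const 0)
  refine (PTF.ite h0 (PTF.const 0) (PTF.cond hf.intIsNeg (PTF.const (-1)) (PTF.const 1))).of_eq
    (fun a => ?_)
  rcases lt_trichotomy (f a) 0 with h | h | h
  · rw [if_neg h.ne, Int.sign_eq_neg_one_of_neg h, decide_eq_true h]; rfl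
  · rw [if_pos h, h]; rfl
  · rw [if_neg h.ne', Int.sign_eq_one_of_pos h, decide_eq_false (not_lt.2 h.le)]; rfl

@[fun_prop]
protected theorem PTF.intEmod (hf : PTF f) (hg : PTF g) : PTF (fun a => f a % g a) := by
  have h1 : PTF (fun a => (f a).natAbs % (g a).natAbs) := PTF.natMod hf.intNatAbs hg.intNatAbs
  have h2 : PTPred (fun a => (f a).natAbs % (g a).natAbs = 0) := PTPred.natEq h1 (PTF.const 0)
  have h3 : PTPred (fun a => (g a).natAbs = 0) := PTPred.natEq hg.intNatAbs (PTF.const 0)
  have h := PTF.ite h3 hf (PTF.cond hf.intIsNeg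
    (PTF.ite h2 (PTF.const (0 : ℤ)) (PTF.intNatCast (PTF.natSub hg.intNatAbs h1)))
    (PTF.intNatCast h1))
  exact h.of_eq (fun a => Arith.emod_formula (f a) (g a))

@[fun_prop]
protected theorem PTF.intEdiv (hf : PTF f) (hg : PTF g) : PTF (fun a => f a / g a) := by
  have h1 : PTF (fun a => f a - f a % g a) := PTF.intSub hf (PTF.intEmod hf hg)
  exact (PTF.intMk (PTF.xor h1.intIsNeg hg.intIsNeg) (PTF.natDiv h1.intNatAbs hg.intNatAbs)).of_eq
    (fun a => Arith.ediv_formula (f a) (g a))

protected theorem PTPred.intDvd (hf : PTF f) (hg : PTF g) : PTPred (fun a => f a ∣ g a) :=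
  (PTPred.natDvd hf.intNatAbs hg.intNatAbs).of_iff (fun _ => Int.natAbs_dvd_natAbs)

@[fun_prop]
protected theorem PTF.intGcd (hf : PTF f) (hg : PTF g) : PTF (fun a => Int.gcd (f a) (g a)) :=
  PTF.natGcd hf.intNatAbs hg.intNatAbs

/-- powers with unary exponent -/
protected theorem PTF.intPow {k : α → ℕ} (hf : PTF f) (hk : PTU k) : PTF (fun a => f a ^ k a) := by
  have hstep : PTF₂ (fun (a : α) (r : ℤ) => r * f a) :=
    PTF.intMul PTF.snd (PTF.comp hf PTF.fst)
  have key : ∀ (a : α) (i : ℕ), (fun r : ℤ => r * f a)^[i] 1 = f a ^ i := by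
    intro a i
    induction i with
    | zero => simp
    | succ i ih => rw [Function.iterate_succ_apply', ih, pow_succ]
  have h := PTF.iterate' (n := k) (f := fun a r => r * f a) (a := fun _ => 1) hk hstep
    (PTF.const _) (B := fun a => k a * sz (f a) + 4) (by
      have := hk.pb
      have := hf.sz
      fun_prop) (fun a i hi => by
      rw [key, sz_int, sz_int, Int.natAbs_pow]
      have h1 := Arith.size_pow_le (f a).natAbs i
      have h2 := Nat.mul_le_mul_right (f a).natAbs.size hi
      have h3 : k a * (f a).natAbs.size ≤ k a * (3 + (f a).natAbs.size) :=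
        Nat.mul_le_mul_left _ (by omega)
      omega)
  exact PTF.of_eq h (fun a => key a _)

@[fun_prop]
protected theorem PTF.intPowConst (hf : PTF f) (k : ℕ) : PTF (fun a => f a ^ k) :=
  PTF.intPow hf (PTU.const k)

end api

namespace Arith

variable {α β γ : Type} [PTCode α] [PTCode β] [PTCode γ]

theorem natAbs_list_sum_le (l : List ℤ) : l.sum.natAbs ≤ (l.map Int.natAbs).sum := by
  induction l with
  | nil => simp
  | cons a l ih =>
    rw [List.sum_cons, List.map_cons, List.sum_cons]
    have := Int.natAbs_add_le a l.sum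
    omega

theorem sz_map_natAbs_le (l : List ℤ) : sz (l.map Int.natAbs) ≤ sz l := by
  induction l with
  | nil => simp
  | cons a l ih =>
    rw [List.map_cons, sz_cons, sz_cons, sz_int, sz_nat]
    omega

theorem ptf_intListSum : PTF (fun l : List ℤ => l.sum) := by
  have h := PTF.foldl (γ := List ℤ) (l := fun l => l) (f := fun _ s a => s + a) (b := fun _ => 0)
    PTF.id (PTF.intAdd (by fun_prop) (by fun_prop)) (PTF.const _) (B := fun l => 3 + sz l)
    (by have := (PTF.id (α := List ℤ)).sz; fun_prop)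
    (fun l i _ => by
      rw [← List.sum_eq_foldl, sz_int]
      have h1 := Nat.size_le_size (natAbs_list_sum_le (l.take i))
      have h2 := size_sum_le ((l.take i).map Int.natAbs)
      have h3 := sz_map_natAbs_le (l.take i)
      have h4 := sz_take_le l i
      omega)
  exact PTF.of_eq h (fun l => (List.sum_eq_foldl).symm)

theorem ptf_intSumRange {n : α → ℕ} {f : α → ℕ → ℤ} (hn : PTU n)
    (hf : PTF (fun p : α × ℕ => f p.1 p.2)) : PTF (fun a => ∑ i ∈ Finset.range (n a), f a i) := by
  obtain ⟨B, hB, hBd⟩ := pb_index hn hf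
  refine ptf_natRec (r := fun a i => ∑ j ∈ Finset.range i, f a j) (s := fun a i t => t + f a i)
    hn (PTF.const 0) ?_ (fun a => by simp) (fun a i _ => Finset.sum_range_succ _ _)
    (B := fun a => 3 + n a * (B a + 1)) (by have := hn.pb; fun_prop) (fun a i hi => ?_)
  · exact PTF.intAdd (by fun_prop) (PTF.comp (g := fun p : α × ℕ => f p.1 p.2)
      (f := fun p : α × ℕ × ℤ => (p.1, p.2.1)) hf (by fun_prop))
  · rw [sz_int]
    have h1 : (∑ j ∈ Finset.range i, f a j).natAbs ≤ ∑ j ∈ Finset.range i, (f a j).natAbs :=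
      Int.natAbs_sum_le _ _
    have h2 := size_sum_range_le (f := fun j => (f a j).natAbs) i (B := B a) (fun j hj => by
      have := hBd a j (by omega)
      rw [sz_int] at this
      omega)
    have h3 := Nat.mul_le_mul_right (B a + 1) hi
    have h4 := Nat.size_le_size h1
    omega

theorem ptf_intProdRange {n : α → ℕ} {f : α → ℕ → ℤ} (hn : PTU n)
    (hf : PTF (fun p : α × ℕ => f p.1 p.2)) : PTF (fun a => ∏ i ∈ Finset.range (n a), f a i) := by
  obtain ⟨B, hB, hBd⟩ := pb_index hn hf
  refine ptf_natRec (r := fun a i => ∏ j ∈ Finset.range i, f a j) (s := fun a i t => t * f a i)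
    hn (PTF.const 1) ?_ (fun a => by simp) (fun a i _ => Finset.prod_range_succ _ _)
    (B := fun a => 4 + n a * B a) (by have := hn.pb; fun_prop) (fun a i hi => ?_)
  · exact PTF.intMul (by fun_prop) (PTF.comp (g := fun p : α × ℕ => f p.1 p.2)
      (f := fun p : α × ℕ × ℤ => (p.1, p.2.1)) hf (by fun_prop))
  · rw [sz_int]
    have h1 : (∏ j ∈ Finset.range i, f a j).natAbs = ∏ j ∈ Finset.range i, (f a j).natAbs :=
      map_prod Int.natAbsHom _ _
    have h2 := size_prod_range_le (f := fun j => (f a j).natAbs) i (B := B a) (fun j hj => by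
      have := hBd a j (by omega)
      rw [sz_int] at this
      omega)
    have h3 := Nat.mul_le_mul_right (B a) hi
    rw [h1]
    omega

end Arith

section api

variable {α β γ : Type} [PTCode α] [PTCode β] [PTCode γ]

@[fun_prop]
protected theorem PTF.intListSum {l : α → List ℤ} (hl : PTF l) : PTF (fun a => (l a).sum) :=
  PTF.comp (g := fun l : List ℤ => l.sum) Arith.ptf_intListSum hl

/-- `∑ i < n, f i` with `n` unary -/
protected theorem PTF.intSumRange {n : α → ℕ} {f : α → ℕ → ℤ} (hn : PTU n) (hf : PTF₂ f) :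
    PTF (fun a => ∑ i ∈ Finset.range (n a), f a i) := Arith.ptf_intSumRange hn hf

/-- `∏ i < n, f i` with `n` unary -/
protected theorem PTF.intProdRange {n : α → ℕ} {f : α → ℕ → ℤ} (hn : PTU n) (hf : PTF₂ f) :
    PTF (fun a => ∏ i ∈ Finset.range (n a), f a i) := Arith.ptf_intProdRange hn hf

end api

end Crest.Agent.Lib.PT
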