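import Crest.Agent.Lib.PT.ArithInt

/-!
# Rational arithmetic is poly-time
-/

set_option linter.dupNamespace false
set_option autoImplicit false

namespace Crest.Agent.Lib.PT

/-- code of a rational number: numerator and denominator -/
instance : PTCode ℚ := PTCode.ofInj (fun q : ℚ => (q.num, q.den)) (by
  intro a b h
  simp only [Prod.mk.injEq] at h
  exact Rat.ext h.1 h.2)

theorem enc_rat (q : ℚ) : enc q = enc (q.num, q.den) := rfl

theorem sz_rat (q : ℚ) : sz q = 2 * (3 + q.num.natAbs.size) + 1 + q.den.size := by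
  have : sz q = sz (q.num, q.den) := rfl
  rw [this, sz_prod, sz_int, sz_nat]

namespace Arith

variable {α β γ : Type} [PTCode α] [PTCode β] [PTCode γ]

theorem ptf_ratNum : PTF (fun q : ℚ => q.num) :=
  ⟨_, PT.fst, fun q => by rw [enc_rat, enc_prod]; simp⟩

theorem ptf_ratDen : PTF (fun q : ℚ => q.den) :=
  ⟨_, PT.snd, fun q => by rw [enc_rat, enc_prod]; simp⟩

theorem ptf_mkRat : PTF (fun p : ℤ × ℕ => mkRat p.1 p.2) := by
  have h1 : PTF (fun p : ℤ × ℕ => ((Nat.gcd p.2 p.1.natAbs : ℕ) : ℤ)) :=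
    PTF.intNatCast (PTF.natGcd PTF.snd (PTF.intNatAbs PTF.fst))
  have h2 : PTF (fun p : ℤ × ℕ => Nat.gcd p.2 p.1.natAbs) :=
    PTF.natGcd PTF.snd (PTF.intNatAbs PTF.fst)
  have h0 : PTPred (fun p : ℤ × ℕ => p.2 = 0) := PTPred.natEq PTF.snd (PTF.const 0)
  have h : PTF (fun p : ℤ × ℕ => ((if p.2 = 0 then 0 else p.1 / (Nat.gcd p.2 p.1.natAbs : ℕ)),
      (if p.2 = 0 then 1 else p.2 / Nat.gcd p.2 p.1.natAbs))) :=
    PTF.prodMk (PTF.ite h0 (PTF.const 0) (PTF.intEdiv PTF.fst h1))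
      (PTF.ite h0 (PTF.const 1) (PTF.natDiv PTF.snd h2))
  obtain ⟨g, hg, hg'⟩ := h
  refine ⟨g, hg, fun p => ?_⟩
  rw [hg', enc_rat, Rat.num_mkRat, Rat.den_mkRat]

theorem natAbs_num_mkRat_le (n : ℤ) (d : ℕ) : (mkRat n d).num.natAbs ≤ n.natAbs := by
  rw [Rat.num_mkRat]
  split_ifs
  · simp
  · exact Int.natAbs_ediv_le_natAbs _ _

theorem num_add_le (q r : ℚ) :
    (q + r).num.natAbs ≤ q.num.natAbs * r.den + r.num.natAbs * q.den := by
  rw [Rat.add_def']
  refine (natAbs_num_mkRat_le _ _).trans ((Int.natAbs_add_le _ _).trans ?_)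
  rw [Int.natAbs_mul, Int.natAbs_mul, Int.natAbs_natCast, Int.natAbs_natCast]

theorem num_mul_le (q r : ℚ) : (q * r).num.natAbs ≤ q.num.natAbs * r.num.natAbs := by
  rw [Rat.mul_def']
  refine (natAbs_num_mkRat_le _ _).trans ?_
  rw [Int.natAbs_mul]

theorem den_add_le (q r : ℚ) : (q + r).den ≤ q.den * r.den :=
  Nat.le_of_dvd (Nat.mul_pos q.den_pos r.den_pos) (Rat.add_den_dvd q r)

theorem den_mul_le (q r : ℚ) : (q * r).den ≤ q.den * r.den :=
  Nat.le_of_dvd (Nat.mul_pos q.den_pos r.den_pos) (Rat.mul_den_dvd q r)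

end Arith

section api

variable {α β γ : Type} [PTCode α] [PTCode β] [PTCode γ] {f g : α → ℚ}

@[fun_prop]
protected theorem PTF.ratNum (hf : PTF f) : PTF (fun a => (f a).num) :=
  PTF.comp (g := fun q : ℚ => q.num) Arith.ptf_ratNum hf

@[fun_prop]
protected theorem PTF.ratDen (hf : PTF f) : PTF (fun a => (f a).den) :=
  PTF.comp (g := fun q : ℚ => q.den) Arith.ptf_ratDen hf

protected theorem PTF.ratMk {n : α → ℤ} {d : α → ℕ} (hn : PTF n) (hd : PTF d) :
    PTF (fun a => mkRat (n a) (d a)) :=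
  PTF.comp (g := fun p : ℤ × ℕ => mkRat p.1 p.2) (f := fun a => (n a, d a)) Arith.ptf_mkRat
    (PTF.prodMk hn hd)

@[fun_prop]
protected theorem PTF.ratIntCast {n : α → ℤ} (hn : PTF n) : PTF (fun a => (n a : ℚ)) :=
  (PTF.ratMk hn (PTF.const 1)).of_eq (fun a => by rw [Rat.mkRat_one])

@[fun_prop]
protected theorem PTF.ratNatCast {n : α → ℕ} (hn : PTF n) : PTF (fun a => (n a : ℚ)) :=
  (PTF.ratIntCast (PTF.intNatCast hn)).of_eq (fun a => by simp)

@[fun_prop]
protected theorem PTF.ratAdd (hf : PTF f) (hg : PTF g) : PTF (fun a => f a + g a) := by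
  have h1 := hf.ratNum
  have h2 := hg.ratNum
  have h3 := hf.ratDen
  have h4 := hg.ratDen
  refine (PTF.ratMk (PTF.intAdd (PTF.intMul h1 h4.intNatCast) (PTF.intMul h2 h3.intNatCast))
    (PTF.natMul h3 h4)).of_eq (fun a => (Rat.add_def' _ _).symm)

@[fun_prop]
protected theorem PTF.ratMul (hf : PTF f) (hg : PTF g) : PTF (fun a => f a * g a) := by
  have h1 := hf.ratNum
  have h2 := hg.ratNum
  have h3 := hf.ratDen
  have h4 := hg.ratDen
  refine (PTF.ratMk (PTF.intMul h1 h2) (PTF.natMul h3 h4)).of_eq (fun a => (Rat.mul_def' _ _).symm)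

@[fun_prop]
protected theorem PTF.ratNeg (hf : PTF f) : PTF (fun a => - f a) :=
  (PTF.ratMul (PTF.const (-1)) hf).of_eq (fun _ => neg_one_mul _)

@[fun_prop]
protected theorem PTF.ratSub (hf : PTF f) (hg : PTF g) : PTF (fun a => f a - g a) :=
  (PTF.ratAdd hf hg.ratNeg).of_eq (fun _ => (sub_eq_add_neg _ _).symm)

@[fun_prop]
protected theorem PTF.ratInv (hf : PTF f) : PTF (fun a => (f a)⁻¹) := by
  have h1 := hf.ratNum
  have h3 := hf.ratDen
  refine (PTF.ratMk (PTF.intMul h1.intSign h3.intNatCast) h1.intNatAbs).of_eq (fun a => ?_)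
  rcases lt_trichotomy (f a) 0 with h | h | h
  · have hn : (f a).num < 0 := Rat.num_neg.2 h
    rw [Int.sign_eq_neg_one_of_neg hn, Rat.mkRat_eq_div]
    have e : (((f a).num.natAbs : ℕ) : ℚ) = -((f a).num : ℚ) := by
      have : (((f a).num.natAbs : ℕ) : ℤ) = -(f a).num := by omega
      rw [← Int.cast_natCast, this, Int.cast_neg]
    rw [e]
    conv_rhs => rw [← Rat.num_div_den (f a)]
    rw [inv_div]
    push_cast
    rw [neg_one_mul, neg_div_neg_eq]
  · simp [h]
  · have hn : 0 < (f a).num := Rat.num_pos.2 h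
    rw [Int.sign_eq_one_of_pos hn, Rat.mkRat_eq_div]
    have e : (((f a).num.natAbs : ℕ) : ℚ) = ((f a).num : ℚ) := by
      have : (((f a).num.natAbs : ℕ) : ℤ) = (f a).num := by omega
      rw [← Int.cast_natCast, this]
    rw [e]
    conv_rhs => rw [← Rat.num_div_den (f a)]
    rw [inv_div]
    push_cast
    rw [one_mul]

@[fun_prop]
protected theorem PTF.ratDiv (hf : PTF f) (hg : PTF g) : PTF (fun a => f a / g a) :=
  (PTF.ratMul hf hg.ratInv).of_eq (fun _ => (div_eq_mul_inv _ _).symm)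

protected theorem PTPred.ratLt (hf : PTF f) (hg : PTF g) : PTPred (fun a => f a < g a) :=
  (PTPred.intLt (PTF.intMul hf.ratNum hg.ratDen.intNatCast)
    (PTF.intMul hg.ratNum hf.ratDen.intNatCast)).of_iff (fun _ => (Rat.lt_iff _ _).symm)

protected theorem PTPred.ratLe (hf : PTF f) (hg : PTF g) : PTPred (fun a => f a ≤ g a) :=
  (PTPred.ratLt hg hf).not.of_iff (fun _ => not_lt)

protected theorem PTPred.ratEq (hf : PTF f) (hg : PTF g) : PTPred (fun a => f a = g a) :=
  PTPred.eq hf hg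

@[fun_prop]
protected theorem PTF.ratFloor (hf : PTF f) : PTF (fun a => ⌊f a⌋) :=
  (PTF.intEdiv hf.ratNum hf.ratDen.intNatCast).of_eq (fun _ => (Rat.floor_def _).symm)

@[fun_prop]
protected theorem PTF.ratCeil (hf : PTF f) : PTF (fun a => ⌈f a⌉) :=
  (PTF.intNeg (PTF.ratFloor hf.ratNeg)).of_eq (fun a => by rw [Int.floor_neg, neg_neg])

@[fun_prop]
protected theorem PTF.ratMax (hf : PTF f) (hg : PTF g) : PTF (fun a => max (f a) (g a)) :=
  (PTF.ite (PTPred.ratLe hf hg) hg hf).of_eq (fun _ => (max_def _ _).symm)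

@[fun_prop]
protected theorem PTF.ratMin (hf : PTF f) (hg : PTF g) : PTF (fun a => min (f a) (g a)) :=
  (PTF.ite (PTPred.ratLe hf hg) hf hg).of_eq (fun _ => (min_def _ _).symm)

@[fun_prop]
protected theorem PTF.ratAbs (hf : PTF f) : PTF (fun a => |f a|) :=
  (PTF.ratMax hf hf.ratNeg).of_eq (fun _ => rfl)

end api

namespace Arith

variable {α β γ : Type} [PTCode α] [PTCode β] [PTCode γ]

theorem rat_sum_bound (f : ℕ → ℚ) (B n : ℕ) (h : ∀ i < n, sz (f i) ≤ B) :
    (∑ i ∈ Finset.range n, f i).den ≤ 2 ^ (n * B) ∧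
      (∑ i ∈ Finset.range n, f i).num.natAbs ≤ n * 2 ^ B * 2 ^ (n * B) := by
  induction n with
  | zero => simp
  | succ n ih =>
    obtain ⟨h1, h2⟩ := ih (fun i hi => h i (by omega))
    have h3 := h n (by omega)
    rw [sz_rat] at h3
    have h4 : (f n).den ≤ 2 ^ B := by
      refine (Nat.lt_size_self _).le.trans (Nat.pow_le_pow_right (by norm_num) (by omega))
    have h5 : (f n).num.natAbs ≤ 2 ^ B := by
      refine (Nat.lt_size_self _).le.trans (Nat.pow_le_pow_right (by norm_num) (by omega))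
    rw [Finset.sum_range_succ]
    set S := ∑ i ∈ Finset.range n, f i
    have e : (2 : ℕ) ^ ((n + 1) * B) = 2 ^ (n * B) * 2 ^ B := by rw [← pow_add]; congr 1; ring
    refine ⟨?_, ?_⟩
    · refine (den_add_le _ _).trans ?_
      rw [e]
      exact Nat.mul_le_mul h1 h4
    · refine (num_add_le _ _).trans ?_
      rw [e]
      calc S.num.natAbs * (f n).den + (f n).num.natAbs * S.den
          ≤ (n * 2 ^ B * 2 ^ (n * B)) * 2 ^ B + 2 ^ B * 2 ^ (n * B) :=
            Nat.add_le_add (Nat.mul_le_mul h2 h4) (Nat.mul_le_mul h5 h1)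
        _ ≤ (n * 2 ^ B * 2 ^ (n * B)) * 2 ^ B + 2 ^ B * 2 ^ (n * B) * 2 ^ B :=
            Nat.add_le_add_left (Nat.le_mul_of_pos_right _ (by positivity)) _
        _ = (n + 1) * 2 ^ B * (2 ^ (n * B) * 2 ^ B) := by ring

theorem rat_sum_sz (f : ℕ → ℚ) (B n : ℕ) (h : ∀ i < n, sz (f i) ≤ B) :
    sz (∑ i ∈ Finset.range n, f i) ≤ 2 * (3 + (n + B + n * B + 1)) + 1 + (n * B + 1) := by
  obtain ⟨h1, h2⟩ := rat_sum_bound f B n h
  rw [sz_rat]
  have h3 : (∑ i ∈ Finset.range n, f i).den.size ≤ n * B + 1 := by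
    rw [Nat.size_le]
    exact h1.trans_lt (Nat.pow_lt_pow_right (by norm_num) (by omega))
  have h4 : (∑ i ∈ Finset.range n, f i).num.natAbs.size ≤ n + B + n * B + 1 := by
    rw [Nat.size_le]
    have h5 : n ≤ 2 ^ n := Nat.lt_two_pow_self.le
    calc _ ≤ n * 2 ^ B * 2 ^ (n * B) := h2
      _ ≤ 2 ^ n * 2 ^ B * 2 ^ (n * B) := Nat.mul_le_mul_right _ (Nat.mul_le_mul_right _ h5)
      _ = 2 ^ (n + B + n * B) := by rw [pow_add, pow_add]
      _ < 2 ^ (n + B + n * B + 1) := Nat.pow_lt_pow_right (by norm_num) (by omega)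
  omega

theorem rat_prod_bound (f : ℕ → ℚ) (B n : ℕ) (h : ∀ i < n, sz (f i) ≤ B) :
    (∏ i ∈ Finset.range n, f i).den ≤ 2 ^ (n * B) ∧
      (∏ i ∈ Finset.range n, f i).num.natAbs ≤ 2 ^ (n * B) := by
  induction n with
  | zero => simp
  | succ n ih =>
    obtain ⟨h1, h2⟩ := ih (fun i hi => h i (by omega))
    have h3 := h n (by omega)
    rw [sz_rat] at h3
    have h4 : (f n).den ≤ 2 ^ B := by
      refine (Nat.lt_size_self _).le.trans (Nat.pow_le_pow_right (by norm_num) (by omega))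
    have h5 : (f n).num.natAbs ≤ 2 ^ B := by
      refine (Nat.lt_size_self _).le.trans (Nat.pow_le_pow_right (by norm_num) (by omega))
    rw [Finset.prod_range_succ]
    set S := ∏ i ∈ Finset.range n, f i
    have e : (2 : ℕ) ^ ((n + 1) * B) = 2 ^ (n * B) * 2 ^ B := by rw [← pow_add]; congr 1; ring
    rw [e]
    exact ⟨(den_mul_le _ _).trans (Nat.mul_le_mul h1 h4),
      (num_mul_le _ _).trans (Nat.mul_le_mul h2 h5)⟩

theorem rat_prod_sz (f : ℕ → ℚ) (B n : ℕ) (h : ∀ i < n, sz (f i) ≤ B) :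
    sz (∏ i ∈ Finset.range n, f i) ≤ 2 * (3 + (n * B + 1)) + 1 + (n * B + 1) := by
  obtain ⟨h1, h2⟩ := rat_prod_bound f B n h
  rw [sz_rat]
  have h3 : (∏ i ∈ Finset.range n, f i).den.size ≤ n * B + 1 := by
    rw [Nat.size_le]
    exact h1.trans_lt (Nat.pow_lt_pow_right (by norm_num) (by omega))
  have h4 : (∏ i ∈ Finset.range n, f i).num.natAbs.size ≤ n * B + 1 := by
    rw [Nat.size_le]
    exact h2.trans_lt (Nat.pow_lt_pow_right (by norm_num) (by omega))
  omega

theorem ptf_ratSumRange {n : α → ℕ} {f : α → ℕ → ℚ} (hn : PTU n)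
    (hf : PTF (fun p : α × ℕ => f p.1 p.2)) : PTF (fun a => ∑ i ∈ Finset.range (n a), f a i) := by
  obtain ⟨B, hB, hBd⟩ := pb_index hn hf
  refine ptf_natRec (r := fun a i => ∑ j ∈ Finset.range i, f a j) (s := fun a i t => t + f a i)
    hn (PTF.const 0) ?_ (fun a => by simp) (fun a i _ => Finset.sum_range_succ _ _)
    (B := fun a => 2 * (3 + (n a + B a + n a * B a + 1)) + 1 + (n a * B a + 1))
    (by have := hn.pb; fun_prop) (fun a i hi => ?_)
  · exact PTF.ratAdd (by fun_prop) (PTF.comp (g := fun p : α × ℕ => f p.1 p.2)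
      (f := fun p : α × ℕ × ℚ => (p.1, p.2.1)) hf (by fun_prop))
  · refine (rat_sum_sz (f a) (B a) i (fun j hj => hBd a j (by omega))).trans ?_
    have h3 := Nat.mul_le_mul_right (B a) hi
    omega

theorem ptf_ratProdRange {n : α → ℕ} {f : α → ℕ → ℚ} (hn : PTU n)
    (hf : PTF (fun p : α × ℕ => f p.1 p.2)) : PTF (fun a => ∏ i ∈ Finset.range (n a), f a i) := by
  obtain ⟨B, hB, hBd⟩ := pb_index hn hf
  refine ptf_natRec (r := fun a i => ∏ j ∈ Finset.range i, f a j) (s := fun a i t => t * f a i)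
    hn (PTF.const 1) ?_ (fun a => by simp) (fun a i _ => Finset.prod_range_succ _ _)
    (B := fun a => 2 * (3 + (n a * B a + 1)) + 1 + (n a * B a + 1))
    (by have := hn.pb; fun_prop) (fun a i hi => ?_)
  · exact PTF.ratMul (by fun_prop) (PTF.comp (g := fun p : α × ℕ => f p.1 p.2)
      (f := fun p : α × ℕ × ℚ => (p.1, p.2.1)) hf (by fun_prop))
  · refine (rat_prod_sz (f a) (B a) i (fun j hj => hBd a j (by omega))).trans ?_
    have h3 := Nat.mul_le_mul_right (B a) hi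
    omega

end Arith

section api

variable {α β γ : Type} [PTCode α] [PTCode β] [PTCode γ]

/-- `∑ i < n, f i` with `n` unary -/
protected theorem PTF.ratSumRange {n : α → ℕ} {f : α → ℕ → ℚ} (hn : PTU n) (hf : PTF₂ f) :
    PTF (fun a => ∑ i ∈ Finset.range (n a), f a i) := Arith.ptf_ratSumRange hn hf

/-- `∏ i < n, f i` with `n` unary -/
protected theorem PTF.ratProdRange {n : α → ℕ} {f : α → ℕ → ℚ} (hn : PTU n) (hf : PTF₂ f) :
    PTF (fun a => ∏ i ∈ Finset.range (n a), f a i) := Arith.ptf_ratProdRange hn hf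

/-- powers with unary exponent -/
protected theorem PTF.ratPow {f : α → ℚ} {k : α → ℕ} (hf : PTF f) (hk : PTU k) :
    PTF (fun a => f a ^ k a) :=
  (PTF.ratProdRange hk (f := fun a _ => f a) (PTF.comp hf PTF.fst)).of_eq
    (fun a => by rw [Finset.prod_const, Finset.card_range])

@[fun_prop]
protected theorem PTF.ratPowConst {f : α → ℚ} (hf : PTF f) (k : ℕ) : PTF (fun a => f a ^ k) :=
  PTF.ratPow hf (PTU.const k)

@[fun_prop]
protected theorem PTF.ratListSum {l : α → List ℚ} (hl : PTF l) : PTF (fun a => (l a).sum) := by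
  have h1 : PTF (fun p : α × ℕ => (l p.1)[min p.2 (l p.1).length]?.getD 0) := by
    refine PTF.optionGetD (PTF.getElem? (PTF.natMinUn PTF.snd (PTU.length ?_)) ?_) (PTF.const 0)
    · exact PTF.comp hl PTF.fst
    · exact PTF.comp hl PTF.fst
  refine (PTF.ratSumRange (PTU.length hl)
    (f := fun a i => (l a)[min i (l a).length]?.getD 0) h1).of_eq (fun a => ?_)
  rw [← Fin.sum_univ_getElem, Finset.sum_range]
  refine Finset.sum_congr rfl (fun i _ => ?_)
  rw [min_eq_left i.2.le, List.getElem?_eq_getElem i.2]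
  rfl

end api

end Crest.Agent.Lib.PT
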