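import Mathlib
import Crest.Prelude.Def_Complexity

/-!
# A structured while-language over Bool stacks and its compilation to `Turing.FinTM2`

* `Cmd`: programs over stacks indexed by `ℕ` with Boolean symbols.
* `Exec c s s' t`: program `c` started on the store `s` ends in `s'` after exactly `t` machine steps.
* `Cmd.toTM c`: the compiled `Turing.FinTM2`.
* `polyTime_of_exec`: a program with a polynomial step bound gives `Crest.Complexity.PolyTime`.
-/

set_option autoImplicit false

namespace Crest.Agent.Lib.PT

/-- Stores: the contents of all stacks. -/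
abbrev Store : Type := ℕ → List Bool

/-- Programs. -/
inductive Cmd : Type
  /-- do nothing (one step) -/
  | skip : Cmd
  /-- push the bit `b` on stack `k` -/
  | push (k : ℕ) (b : Bool) : Cmd
  /-- remove the top of stack `k` (nothing happens if it is empty) -/
  | pop (k : ℕ) : Cmd
  /-- sequential composition -/
  | seq (c d : Cmd) : Cmd
  /-- branch on the top of stack `k`: `e` if it is empty, `c` if the top is `true`, `d` if `false` -/
  | ite (k : ℕ) (e c d : Cmd) : Cmd
  /-- while stack `k` is nonempty do `c` -/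
  | loop (k : ℕ) (c : Cmd) : Cmd
  deriving Inhabited

/-- Big-step semantics with exact step count. -/
inductive Exec : Cmd → Store → Store → ℕ → Prop
  | skip (s : Store) : Exec Cmd.skip s s 1
  | push (k : ℕ) (b : Bool) (s : Store) :
      Exec (Cmd.push k b) s (Function.update s k (b :: s k)) 1
  | pop (k : ℕ) (s : Store) : Exec (Cmd.pop k) s (Function.update s k (s k).tail) 1
  | seq {c d : Cmd} {s s' s'' : Store} {t t' : ℕ} :
      Exec c s s' t → Exec d s' s'' t' → Exec (Cmd.seq c d) s s'' (t + t')
  | ite_nil {k : ℕ} {e c d : Cmd} {s s' : Store} {t : ℕ} :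
      s k = [] → Exec e s s' t → Exec (Cmd.ite k e c d) s s' (1 + t)
  | ite_true {k : ℕ} {e c d : Cmd} {s s' : Store} {t : ℕ} {l : List Bool} :
      s k = true :: l → Exec c s s' t → Exec (Cmd.ite k e c d) s s' (1 + t)
  | ite_false {k : ℕ} {e c d : Cmd} {s s' : Store} {t : ℕ} {l : List Bool} :
      s k = false :: l → Exec d s s' t → Exec (Cmd.ite k e c d) s s' (1 + t)
  | loop_nil {k : ℕ} {c : Cmd} {s : Store} : s k = [] → Exec (Cmd.loop k c) s s 1
  | loop_cons {k : ℕ} {c : Cmd} {s s' s'' : Store} {t t' : ℕ} :
      s k ≠ [] → Exec c s s' t → Exec (Cmd.loop k c) s' s'' t' →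
        Exec (Cmd.loop k c) s s'' (1 + t + t')

namespace Cmd

/-- A bound on the stack indices used by a program. -/
def maxVar : Cmd → ℕ
  | skip => 0
  | push k _ => k
  | pop k => k
  | seq c d => max c.maxVar d.maxVar
  | ite k e c d => max k (max e.maxVar (max c.maxVar d.maxVar))
  | loop k c => max k c.maxVar

/-- Labels of the compiled machine. -/
def Lab : Cmd → Type
  | skip => Unit
  | push _ _ => Unit
  | pop _ => Unit
  | seq c d => Lab c ⊕ Lab d
  | ite _ e c d => Unit ⊕ (Lab e ⊕ (Lab c ⊕ Lab d))
  | loop _ c => Unit ⊕ Lab c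

/-- finitely many labels -/
@[instance_reducible]
noncomputable def labFintype : (c : Cmd) → Fintype (Lab c)
  | skip => inferInstanceAs (Fintype Unit)
  | push _ _ => inferInstanceAs (Fintype Unit)
  | pop _ => inferInstanceAs (Fintype Unit)
  | seq c d =>
      haveI := labFintype c
      haveI := labFintype d
      inferInstanceAs (Fintype (Lab c ⊕ Lab d))
  | ite _ e c d =>
      haveI := labFintype e
      haveI := labFintype c
      haveI := labFintype d
      inferInstanceAs (Fintype (Unit ⊕ (Lab e ⊕ (Lab c ⊕ Lab d))))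
  | loop _ c =>
      haveI := labFintype c
      inferInstanceAs (Fintype (Unit ⊕ Lab c))

noncomputable instance (c : Cmd) : Fintype (Lab c) := labFintype c

/-- Entry label. -/
def entry : (c : Cmd) → Lab c
  | skip => ()
  | push _ _ => ()
  | pop _ => ()
  | seq c _ => Sum.inl (entry c)
  | ite _ _ _ _ => Sum.inl ()
  | loop _ _ => Sum.inl ()

/-- The machine statements of a program. `K` is the type of stacks, `κ` names them, `emb` embeds the
labels of the program into all labels and `exit` is the label to go to at the end. -/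
def code {K : Type} (κ : ℕ → K) {Λ : Type} : (c : Cmd) → (Lab c → Λ) → Λ → Lab c →
    Turing.TM2.Stmt (fun _ : K => Bool) Λ (Option Bool)
  | skip, _, exit, _ => .goto fun _ => exit
  | push k b, _, exit, _ => .push (κ k) (fun _ => b) (.goto fun _ => exit)
  | pop k, _, exit, _ => .pop (κ k) (fun v _ => v) (.goto fun _ => exit)
  | seq c d, emb, exit, l =>
      Sum.elim (fun a => code κ c (fun x => emb (Sum.inl x)) (emb (Sum.inr (entry d))) a)
        (fun a => code κ d (fun x => emb (Sum.inr x)) exit a) l
  | ite k e c d, emb, exit, l =>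
      Sum.elim
        (fun _ => .peek (κ k) (fun _ o => o) (.goto fun v =>
          match v with
          | none => emb (Sum.inr (Sum.inl (entry e)))
          | some true => emb (Sum.inr (Sum.inr (Sum.inl (entry c))))
          | some false => emb (Sum.inr (Sum.inr (Sum.inr (entry d))))))
        (Sum.elim (fun a => code κ e (fun x => emb (Sum.inr (Sum.inl x))) exit a)
          (Sum.elim (fun a => code κ c (fun x => emb (Sum.inr (Sum.inr (Sum.inl x)))) exit a)
            (fun a => code κ d (fun x => emb (Sum.inr (Sum.inr (Sum.inr x)))) exit a))) l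
  | loop k c, emb, exit, l =>
      Sum.elim
        (fun _ => .peek (κ k) (fun _ o => o) (.goto fun v =>
          match v with
          | none => exit
          | some _ => emb (Sum.inr (entry c))))
        (fun a => code κ c (fun x => emb (Sum.inr x)) (emb (Sum.inl ())) a) l

/-- stack names of the compiled machine -/
def nm (N : ℕ) (k : ℕ) : Fin (N + 1) := Fin.ofNat (N + 1) k

/-- the machine contents corresponding to a store -/
def stk (N : ℕ) (s : Store) : ∀ _ : Fin (N + 1), List Bool := fun i => s i

theorem stk_nm {N k : ℕ} (h : k ≤ N) (s : Store) : stk N s (nm N k) = s k := by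
  simp [stk, nm, Nat.mod_eq_of_lt (Nat.lt_succ_of_le h)]

theorem update_stk {N k : ℕ} (h : k ≤ N) (s : Store) (v : List Bool) :
    Function.update (stk N s) (nm N k) v = stk N (Function.update s k v) := by
  funext i
  by_cases hi : (i : ℕ) = k
  · have : i = nm N k := by
      apply Fin.ext
      simp [nm, Nat.mod_eq_of_lt (Nat.lt_succ_of_le h), hi]
    subst this
    simp [stk, hi]
  · have h1 : i ≠ nm N k := by
      intro h2
      apply hi
      rw [h2]
      simp [nm, Nat.mod_eq_of_lt (Nat.lt_succ_of_le h)]
    simp [stk, h1, hi]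

end Cmd

open Cmd

section sim

variable {N : ℕ} {Λ : Type}

/-- iterating the step function -/
def steps (m : Λ → Turing.TM2.Stmt (fun _ : Fin (N + 1) => Bool) Λ (Option Bool)) (t : ℕ)
    (a : Option (Turing.TM2.Cfg (fun _ : Fin (N + 1) => Bool) Λ (Option Bool))) :
    Option (Turing.TM2.Cfg (fun _ : Fin (N + 1) => Bool) Λ (Option Bool)) :=
  (flip bind (Turing.TM2.step m))^[t] a

theorem steps_add (m : Λ → Turing.TM2.Stmt (fun _ : Fin (N + 1) => Bool) Λ (Option Bool))
    (t t' : ℕ) (a) : steps m (t + t') a = steps m t' (steps m t a) := by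
  unfold steps
  rw [add_comm t t', Function.iterate_add_apply]

theorem steps_one (m : Λ → Turing.TM2.Stmt (fun _ : Fin (N + 1) => Bool) Λ (Option Bool))
    (l : Λ) (v : Option Bool) (S) :
    steps m 1 (some ⟨some l, v, S⟩) = some (Turing.TM2.stepAux (m l) v S) := rfl

/-- The compiled code simulates the program. -/
theorem sim {c : Cmd} {s s' : Store} {t : ℕ} (h : Exec c s s' t) :
    ∀ (m : Λ → Turing.TM2.Stmt (fun _ : Fin (N + 1) => Bool) Λ (Option Bool))
      (emb : Lab c → Λ) (exit : Λ), (∀ a, m (emb a) = code (nm N) c emb exit a) →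
      c.maxVar ≤ N → ∀ v, ∃ v',
        steps m t (some ⟨some (emb (entry c)), v, stk N s⟩) = some ⟨some exit, v', stk N s'⟩ := by
  induction h with
  | skip s =>
    intro m emb exit hm _ v
    refine ⟨v, ?_⟩
    rw [steps_one, hm]
    rfl
  | push k b s =>
    intro m emb exit hm hN v
    refine ⟨v, ?_⟩
    rw [steps_one, hm]
    have hk : k ≤ N := hN
    simp only [code, Turing.TM2.stepAux, stk_nm hk, update_stk hk]
  | pop k s =>
    intro m emb exit hm hN v
    refine ⟨v, ?_⟩
    rw [steps_one, hm]
    have hk : k ≤ N := hN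
    simp only [code, Turing.TM2.stepAux, stk_nm hk, update_stk hk]
  | @seq c d s s' s'' t t' _ _ ih1 ih2 =>
    intro m emb exit hm hN v
    have hN' : c.maxVar ≤ N ∧ d.maxVar ≤ N := by simpa [maxVar] using hN
    obtain ⟨v1, h1⟩ := ih1 m (fun x => emb (Sum.inl x)) (emb (Sum.inr (entry d)))
      (fun a => hm (Sum.inl a)) hN'.1 v
    obtain ⟨v2, h2⟩ := ih2 m (fun x => emb (Sum.inr x)) exit (fun a => hm (Sum.inr a)) hN'.2 v1
    refine ⟨v2, ?_⟩
    rw [steps_add]
    simp only [entry]
    rw [h1, h2]
  | @ite_nil k e c d s s' t hk _ ih =>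
    intro m emb exit hm hN v
    have hN' : k ≤ N ∧ e.maxVar ≤ N ∧ c.maxVar ≤ N ∧ d.maxVar ≤ N := by simpa [maxVar] using hN
    obtain ⟨v1, h1⟩ := ih m (fun x => emb (Sum.inr (Sum.inl x))) exit
      (fun a => hm (Sum.inr (Sum.inl a))) hN'.2.1 none
    refine ⟨v1, ?_⟩
    rw [steps_add, steps_one, hm]
    simp only [code, entry, Sum.elim_inl, Turing.TM2.stepAux, stk_nm hN'.1, hk, List.head?_nil]
    exact h1
  | @ite_true k e c d s s' t l hk _ ih =>
    intro m emb exit hm hN v
    have hN' : k ≤ N ∧ e.maxVar ≤ N ∧ c.maxVar ≤ N ∧ d.maxVar ≤ N := by simpa [maxVar] using hN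
    obtain ⟨v1, h1⟩ := ih m (fun x => emb (Sum.inr (Sum.inr (Sum.inl x)))) exit
      (fun a => hm (Sum.inr (Sum.inr (Sum.inl a)))) hN'.2.2.1 (some true)
    refine ⟨v1, ?_⟩
    rw [steps_add, steps_one, hm]
    simp only [code, entry, Sum.elim_inl, Turing.TM2.stepAux, stk_nm hN'.1, hk, List.head?_cons]
    exact h1
  | @ite_false k e c d s s' t l hk _ ih =>
    intro m emb exit hm hN v
    have hN' : k ≤ N ∧ e.maxVar ≤ N ∧ c.maxVar ≤ N ∧ d.maxVar ≤ N := by simpa [maxVar] using hN
    obtain ⟨v1, h1⟩ := ih m (fun x => emb (Sum.inr (Sum.inr (Sum.inr x)))) exit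
      (fun a => hm (Sum.inr (Sum.inr (Sum.inr a)))) hN'.2.2.2 (some false)
    refine ⟨v1, ?_⟩
    rw [steps_add, steps_one, hm]
    simp only [code, entry, Sum.elim_inl, Turing.TM2.stepAux, stk_nm hN'.1, hk, List.head?_cons]
    exact h1
  | @loop_nil k c s hk =>
    intro m emb exit hm hN v
    have hN' : k ≤ N ∧ c.maxVar ≤ N := by simpa [maxVar] using hN
    refine ⟨none, ?_⟩
    rw [steps_one, hm]
    simp only [code, entry, Sum.elim_inl, Turing.TM2.stepAux, stk_nm hN'.1, hk, List.head?_nil]
  | @loop_cons k c s s' s'' t t' hk _ _ ih1 ih2 =>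
    intro m emb exit hm hN v
    have hN' : k ≤ N ∧ c.maxVar ≤ N := by simpa [maxVar] using hN
    obtain ⟨b, l, hbl⟩ : ∃ b l, s k = b :: l := List.exists_cons_of_ne_nil hk
    obtain ⟨v1, h1⟩ := ih1 m (fun x => emb (Sum.inr x)) (emb (Sum.inl ()))
      (fun a => hm (Sum.inr a)) hN'.2 (some b)
    obtain ⟨v2, h2⟩ := ih2 m emb exit hm hN v1
    refine ⟨v2, ?_⟩
    rw [steps_add, steps_add, steps_one, hm]
    simp only [code, entry, Sum.elim_inl, Turing.TM2.stepAux, stk_nm hN'.1, hbl, List.head?_cons]
    simp only [entry] at h2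
    rw [h1, h2]

end sim

/-- the statements of the compiled machine -/
def prog (c : Cmd) : Option (Lab c) →
    Turing.TM2.Stmt (fun _ : Fin (c.maxVar + 1) => Bool) (Option (Lab c)) (Option Bool)
  | none => .load (fun _ => none) .halt
  | some a => code (nm c.maxVar) c some none a

/-- The compiled machine: input and output on stack `0`. -/
noncomputable def Cmd.toTM (c : Cmd) : Turing.FinTM2 where
  K := Fin (c.maxVar + 1)
  k₀ := nm c.maxVar 0
  k₁ := nm c.maxVar 0
  Γ := fun _ => Bool
  Λ := Option (Lab c)
  main := some (entry c)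
  σ := Option Bool
  initialState := none
  m := prog c

/-- the store with `x` on stack `0` and nothing else -/
def init (x : List Bool) : Store := fun k => if k = 0 then x else []

@[simp] theorem init_zero (x : List Bool) : init x 0 = x := rfl

@[simp] theorem init_succ (x : List Bool) (k : ℕ) : init x (k + 1) = [] := rfl

theorem stk_init_eq (N : ℕ) (x : List Bool) (i : Fin (N + 1)) :
    stk N (init x) i = if i = nm N 0 then x else [] := by
  have : (i : ℕ) = 0 ↔ i = nm N 0 := by
    constructor
    · intro h; apply Fin.ext; simp [nm, h]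
    · intro h; rw [h]; simp [nm]
  unfold stk init
  by_cases h : (i : ℕ) = 0
  · rw [if_pos h, if_pos (this.1 h)]
  · rw [if_neg h, if_neg (fun h2 => h (this.2 h2))]

theorem initList_toTM (c : Cmd) (x : List Bool) :
    Turing.initList (Cmd.toTM c) x =
      (⟨some (some (entry c)), none, stk c.maxVar (init x)⟩ :
        Turing.TM2.Cfg (fun _ : Fin (c.maxVar + 1) => Bool) (Option (Lab c)) (Option Bool)) := by
  have h : (fun i : Fin (c.maxVar + 1) => if i = nm c.maxVar 0 then x else []) =
      stk c.maxVar (init x) := by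
    funext i
    rw [stk_init_eq]
  rw [← h]
  rfl

theorem haltList_toTM (c : Cmd) (x : List Bool) :
    Turing.haltList (Cmd.toTM c) x =
      (⟨none, none, stk c.maxVar (init x)⟩ :
        Turing.TM2.Cfg (fun _ : Fin (c.maxVar + 1) => Bool) (Option (Lab c)) (Option Bool)) := by
  have h : (fun i : Fin (c.maxVar + 1) => if i = nm c.maxVar 0 then x else []) =
      stk c.maxVar (init x) := by
    funext i
    rw [stk_init_eq]
  rw [← h]
  rfl

/-- The machine computes: the output configuration is reached within `t + 1` steps. -/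
theorem outputs_of_exec {c : Cmd} {x y : List Bool} {t : ℕ} (h : Exec c (init x) (init y) t) :
    (flip bind (Cmd.toTM c).step)^[t + 1] (some (Turing.initList (Cmd.toTM c) x)) =
      some (Turing.haltList (Cmd.toTM c) y) := by
  rw [initList_toTM, haltList_toTM]
  obtain ⟨v', hv⟩ := sim (N := c.maxVar) (Λ := Option (Lab c)) h (prog c) some none
    (fun a => rfl) le_rfl none
  have h2 : steps (prog c) (t + 1) (some ⟨some (some (entry c)), none, stk c.maxVar (init x)⟩) =
      some ⟨none, none, stk c.maxVar (init y)⟩ := by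
    rw [steps_add, hv, steps_one]
    rfl
  exact h2

/-- A program with a polynomial step bound yields `Crest.Complexity.PolyTime`. -/
theorem polyTime_of_exec {f : List Bool → List Bool} (c : Cmd) (p : Polynomial ℕ)
    (h : ∀ x, ∃ t, t ≤ p.eval x.length ∧ Exec c (init x) (init (f x)) t) :
    Crest.Complexity.PolyTime f := by
  refine ⟨{ tm := Cmd.toTM c
            inputAlphabet := Equiv.refl _
            outputAlphabet := Equiv.refl _
            time := p + 1
            outputsFun := fun x => ?_ }⟩
  have e1 : ∀ y : List Bool, (List.map (id : Bool → Bool) y) = y := fun y => List.map_id y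
  have h1 : ∀ y z : List Bool, y = x → z = f x →
      (flip bind (Cmd.toTM c).step)^[(h x).choose + 1] (some (Turing.initList (Cmd.toTM c) y)) =
      some (Turing.haltList (Cmd.toTM c) z) := by
    rintro y z rfl rfl
    exact outputs_of_exec (h y).choose_spec.2
  exact
    { steps := (h x).choose + 1
      evals_in_steps := h1 _ _ (e1 x) (e1 (f x))
      steps_le_m := by
        simp only [Polynomial.eval_add, Polynomial.eval_one]
        exact Nat.add_le_add_right (h x).choose_spec.1 1 }

end Crest.Agent.Lib.PT
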