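import Crest.Agent.Lib.PT.Typed

/-!
# Iteration and folds in the typed layer
-/

set_option linter.dupNamespace false

namespace Crest.Agent.Lib.PT

/-! ### polynomially bounded size functions -/

section bounds

variable {α β γ : Type} [PTCode α] [PTCode β] [PTCode γ]

/-- `f a` is bounded by a polynomial in the size of `a`. -/
@[fun_prop]
def PB (f : α → ℕ) : Prop := ∃ p : Polynomial ℕ, ∀ a, f a ≤ p.eval (sz a)

theorem eval_mono (p : Polynomial ℕ) {m n : ℕ} (h : m ≤ n) : p.eval m ≤ p.eval n := by
  induction p using Polynomial.induction_on' with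
  | add p q hp hq => simp only [Polynomial.eval_add]; omega
  | monomial k a =>
    simp only [Polynomial.eval_monomial]
    exact Nat.mul_le_mul_left _ (Nat.pow_le_pow_left h _)

protected theorem PB.mono {f g : α → ℕ} (hg : PB g) (h : ∀ a, f a ≤ g a) : PB f := by
  obtain ⟨p, hp⟩ := hg
  exact ⟨p, fun a => (h a).trans (hp a)⟩

@[fun_prop]
protected theorem PB.const (n : ℕ) : PB (fun _ : α => n) := ⟨Polynomial.C n, fun a => by simp⟩

@[fun_prop]
protected theorem PB.sz : PB (fun a : α => sz a) := ⟨Polynomial.X, fun a => by simp⟩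

@[fun_prop]
protected theorem PB.add {f g : α → ℕ} (hf : PB f) (hg : PB g) : PB (fun a => f a + g a) := by
  obtain ⟨p, hp⟩ := hf
  obtain ⟨q, hq⟩ := hg
  exact ⟨p + q, fun a => by simp only [Polynomial.eval_add]; exact Nat.add_le_add (hp a) (hq a)⟩

@[fun_prop]
protected theorem PB.mul {f g : α → ℕ} (hf : PB f) (hg : PB g) : PB (fun a => f a * g a) := by
  obtain ⟨p, hp⟩ := hf
  obtain ⟨q, hq⟩ := hg
  exact ⟨p * q, fun a => by simp only [Polynomial.eval_mul]; exact Nat.mul_le_mul (hp a) (hq a)⟩

@[fun_prop]
protected theorem PB.pow {f : α → ℕ} (hf : PB f) (k : ℕ) : PB (fun a => f a ^ k) := by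
  induction k with
  | zero => simpa using PB.const 1
  | succ k ih => simpa [pow_succ] using PB.mul ih hf

/-- a bound in terms of a polynomial of another bound -/
protected theorem PB.eval {f : α → ℕ} (p : Polynomial ℕ) (hf : PB f) : PB (fun a => p.eval (f a)) := by
  obtain ⟨q, hq⟩ := hf
  exact ⟨p.comp q, fun a => by rw [Polynomial.eval_comp]; exact eval_mono p (hq a)⟩

protected theorem PB.comp {f : β → ℕ} {g : α → β} (hf : PB f) (hg : PTF g) : PB (fun a => f (g a)) := by
  obtain ⟨p, hp⟩ := hf
  exact (PB.eval p hg.bound).mono (fun a => hp (g a))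

@[fun_prop]
protected theorem PTF.sz {f : α → β} (hf : PTF f) : PB (fun a => sz (f a)) := hf.bound

end bounds

/-! ### sizes of basic codes -/

section sizes

variable {α β γ : Type} [PTCode α] [PTCode β] [PTCode γ]

@[simp] theorem sz_unit (x : Unit) : sz x = 0 := rfl
@[simp] theorem sz_bool (b : Bool) : sz b = 1 := rfl
@[simp] theorem sz_bits (x : Bits) : sz x = x.val.length := rfl
@[simp] theorem sz_un (n : Un) : sz n = n.val := by simp [sz]
@[simp] theorem sz_prod (p : α × β) : sz p = 2 * sz p.1 + 1 + sz p.2 := by simp [sz]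
@[simp] theorem sz_nil : sz ([] : List α) = 0 := rfl
@[simp] theorem sz_cons (a : α) (l : List α) : sz (a :: l) = 2 * sz a + 1 + sz l := by simp [sz]
@[simp] theorem sz_none : sz (none : Option α) = 0 := rfl
@[simp] theorem sz_some (a : α) : sz (some a) = sz a + 1 := by simp [sz]
@[simp] theorem sz_inl (a : α) : sz (Sum.inl a : α ⊕ β) = sz a + 1 := by simp [sz]
@[simp] theorem sz_inr (b : β) : sz (Sum.inr b : α ⊕ β) = sz b + 1 := by simp [sz]
theorem sz_nat (n : ℕ) : sz n = n.size := by simp [sz, enc_nat, Nat.size_eq_bits_len]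
theorem sz_fin {n : ℕ} (i : Fin n) : sz i = (i : ℕ).size := by
  simp [sz, enc_fin, Nat.size_eq_bits_len]

theorem sz_append (l l' : List α) : sz (l ++ l') = sz l + sz l' := by
  induction l with
  | nil => simp
  | cons a l ih => simp [ih]; omega

theorem sz_list (l : List α) : sz l = (l.map (fun a => 2 * sz a + 1)).sum := by
  induction l with
  | nil => simp
  | cons a l ih => simp [ih]

theorem sz_reverse (l : List α) : sz l.reverse = sz l := by
  induction l with
  | nil => simp
  | cons a l ih => simp [ih, sz_append]; omega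

theorem length_le_sz (l : List α) : l.length ≤ sz l := by
  induction l with
  | nil => simp
  | cons a l ih => simp; omega

theorem sz_mem_le {l : List α} {a : α} (h : a ∈ l) : sz a ≤ sz l := by
  induction l with
  | nil => simp at h
  | cons b l ih =>
    rcases List.mem_cons.1 h with rfl | h
    · simp; omega
    · have := ih h; simp; omega

theorem sz_take_le (l : List α) (n : ℕ) : sz (l.take n) ≤ sz l := by
  have := sz_append (l.take n) (l.drop n)
  rw [List.take_append_drop] at this
  omega

theorem sz_drop_le (l : List α) (n : ℕ) : sz (l.drop n) ≤ sz l := by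
  have := sz_append (l.take n) (l.drop n)
  rw [List.take_append_drop] at this
  omega

theorem sz_tail_le (l : List α) : sz l.tail ≤ sz l := by
  cases l <;> simp

/-- bound on the size of a list from bounds on its length and entries -/
theorem sz_list_le {l : List α} {m : ℕ} (h : ∀ a ∈ l, sz a ≤ m) :
    sz l ≤ l.length * (2 * m + 1) := by
  induction l with
  | nil => simp
  | cons a l ih =>
    have h1 := ih (fun b hb => h b (by simp [hb]))
    have h2 := h a (by simp)
    simp only [sz_cons, List.length_cons]
    have : (l.length + 1) * (2 * m + 1) = l.length * (2 * m + 1) + (2 * m + 1) := by ring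
    omega

end sizes

/-! ### iteration -/

section iterate

variable {α β γ δ : Type} [PTCode α] [PTCode β] [PTCode γ] [PTCode δ]

protected theorem PTF.iterate {n : γ → ℕ} {f : γ → α → α} {a : γ → α}
    (hn : PTF (fun c => Un.mk (n c))) (hf : PTF₂ f) (ha : PTF a)
    (hb : ∃ p : Polynomial ℕ, ∀ c, ∀ i ≤ n c,
      sz ((f c)^[i] (a c)) ≤ p.eval (sz c)) :
    PTF (fun c => (f c)^[n c] (a c)) := by
  obtain ⟨p, hp⟩ := hb
  obtain ⟨nR, hnR, hn⟩ := hn
  obtain ⟨fR, hfR, hf⟩ := hf
  obtain ⟨aR, haR, ha⟩ := ha
  obtain ⟨B, hB, hB'⟩ := PT.polyLen p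
  let S : List Bool → List Bool := fun s =>
    Crest.Agent.Lib.PT.pair (Crest.Agent.Lib.PT.fst s)
      ((fR (Crest.Agent.Lib.PT.pair (Crest.Agent.Lib.PT.snd (Crest.Agent.Lib.PT.fst s))
        (Crest.Agent.Lib.PT.snd s))).take
        (Crest.Agent.Lib.PT.fst (Crest.Agent.Lib.PT.fst s)).length)
  have hS : PT S := PT.pair PT.fst (PT.take' (PT.fst' PT.fst)
    (PT.comp hfR (PT.pair (PT.snd' PT.fst) PT.snd)))
  have hSfst : ∀ s i, Crest.Agent.Lib.PT.fst (S^[i] s) = Crest.Agent.Lib.PT.fst s := by
    intro s i
    induction i with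
    | zero => rfl
    | succ i ih => rw [Function.iterate_succ_apply']; simp only [S, fst_pair]; exact ih
  have hSlen : ∀ s i, (S^[i] s).length ≤ 3 * s.length + 1 := by
    intro s i
    cases i with
    | zero => simp; omega
    | succ i =>
      rw [Function.iterate_succ_apply']
      have h1 := hSfst s i
      have h2 := length_fst_le s
      have h3 := length_fst_le (Crest.Agent.Lib.PT.fst s)
      generalize S^[i] s = t at h1
      simp only [S, length_pair, h1, List.length_take]
      omega
  have hiter : PT (fun z => S^[(Crest.Agent.Lib.PT.fst z).length] (Crest.Agent.Lib.PT.snd z)) := by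
    refine PT.iter hS ⟨3 * Polynomial.X + 1, fun x n i _ => (hSlen x i).trans ?_⟩
    simp only [Polynomial.eval_add, Polynomial.eval_mul, Polynomial.eval_ofNat, Polynomial.eval_X,
      Polynomial.eval_one]
    omega
  have hinit : PT (fun z => Crest.Agent.Lib.PT.pair (Crest.Agent.Lib.PT.pair (B z) z) (aR z)) :=
    PT.pair (PT.pair hB PT.id) haR
  refine ⟨_, PT.snd' (PT.comp hiter (PT.pair hnR hinit)), fun c => ?_⟩
  have key : ∀ i ≤ n c, S^[i] (Crest.Agent.Lib.PT.pair
      (Crest.Agent.Lib.PT.pair (B (enc c)) (enc c))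
      (aR (enc c))) = Crest.Agent.Lib.PT.pair
      (Crest.Agent.Lib.PT.pair (B (enc c)) (enc c))
      (enc ((f c)^[i] (a c))) := by
    intro i
    induction i with
    | zero => intro _; simp [ha]
    | succ i ih =>
      intro hi
      rw [Function.iterate_succ_apply', ih (by omega), Function.iterate_succ_apply']
      have h1 := hf (c, (f c)^[i] (a c))
      simp only [enc_prod] at h1
      have h2 := hp c (i + 1) hi
      rw [Function.iterate_succ_apply'] at h2
      simp only [S, fst_pair, snd_pair, h1]
      rw [List.take_of_length_le]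
      rw [← hB']
      exact h2
  simp only [fst_pair, snd_pair, hn]
  have hlen : (enc (Un.mk (n c))).length = n c := by simp
  rw [hlen, key _ le_rfl]
  simp

/-- a version of iteration for `PB` bounds of steps:
sizes along the orbit are bounded by a `PB` function -/
protected theorem PTF.iterate' {n : γ → ℕ} {f : γ → α → α} {a : γ → α}
    (hn : PTF (fun c => Un.mk (n c))) (hf : PTF₂ f) (ha : PTF a) {B : γ → ℕ} (hB : PB B)
    (hb : ∀ c, ∀ i ≤ n c, sz ((f c)^[i] (a c)) ≤ B c) :
    PTF (fun c => (f c)^[n c] (a c)) := by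
  obtain ⟨p, hp⟩ := hB
  exact PTF.iterate hn hf ha ⟨p, fun c i hi => (hb c i hi).trans (hp c)⟩

end iterate

/-! ### unary numbers -/

section unary

variable {α β γ δ : Type} [PTCode α] [PTCode β] [PTCode γ] [PTCode δ]

/-- unary poly-time functions -/
@[fun_prop]
def PTU (n : α → ℕ) : Prop := PTF (fun a => Un.mk (n a))

protected theorem PTU.of_eq {f g : α → ℕ} (hf : PTU f) (h : ∀ a, f a = g a) : PTU g := by
  have : f = g := funext h
  rwa [← this]

@[fun_prop]
protected theorem PTF.unMk {n : α → ℕ} (hn : PTU n) : PTF (fun a => Un.mk (n a)) := hn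

@[fun_prop]
protected theorem PTU.comp {n : β → ℕ} {f : α → β} (hn : PTU n) (hf : PTF f) : PTU (fun a => n (f a)) :=
  PTF.comp (g := fun b => Un.mk (n b)) hn hf

@[fun_prop]
protected theorem PTU.pb {n : α → ℕ} (hn : PTU n) : PB n := by
  obtain ⟨p, hp⟩ := PTF.bound hn
  exact ⟨p, fun a => by simpa using hp a⟩

@[fun_prop]
protected theorem PTU.const (n : ℕ) : PTU (fun _ : α => n) := PTF.const _

@[fun_prop]
protected theorem PTU.val {f : α → Un} (hf : PTF f) : PTU (fun a => (f a).val) := hf

protected theorem PTU.sz : PTU (fun a : α => sz a) := by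
  -- replace every bit by `true`, by iterating `cons true`
  have h1 : PT (fun z => (List.cons true)^[(Crest.Agent.Lib.PT.fst z).length]
      (Crest.Agent.Lib.PT.snd z)) := PT.iter_add (c := 1) (PT.cons true) (by intro x; simp)
  have h2 : PT (fun x => Crest.Agent.Lib.PT.pair x []) := PT.pair PT.id (PT.const [])
  have key : ∀ n : ℕ, (List.cons true)^[n] [] = List.replicate n true := by
    intro n
    induction n with
    | zero => rfl
    | succ n ih => rw [Function.iterate_succ_apply', ih]; rfl
  refine ⟨_, PT.comp h1 h2, fun a => ?_⟩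
  simp only [fst_pair, snd_pair, key, enc_un]
  rfl

@[fun_prop]
protected theorem PTF.szU {f : α → β} (hf : PTF f) : PTU (fun a => sz (f a)) :=
  PTU.comp (n := fun b => sz b) PTU.sz hf

@[fun_prop]
protected theorem PTU.add {m n : α → ℕ} (hm : PTU m) (hn : PTU n) : PTU (fun a => m a + n a) := by
  obtain ⟨f, hf, hf'⟩ := hm
  obtain ⟨g, hg, hg'⟩ := hn
  exact ⟨_, PT.append' hf hg, fun a => by rw [hf', hg']; simp⟩

protected theorem PTU.succ {n : α → ℕ} (hn : PTU n) : PTU (fun a => n a + 1) := PTU.add hn (PTU.const 1)

@[fun_prop]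
protected theorem PTU.sub {m n : α → ℕ} (hm : PTU m) (hn : PTU n) : PTU (fun a => m a - n a) := by
  obtain ⟨f, hf, hf'⟩ := hm
  obtain ⟨g, hg, hg'⟩ := hn
  exact ⟨_, PT.drop' hg hf, fun a => by simp [hf', hg']⟩

@[fun_prop]
protected theorem PTU.min {m n : α → ℕ} (hm : PTU m) (hn : PTU n) : PTU (fun a => Min.min (m a) (n a)) := by
  obtain ⟨f, hf, hf'⟩ := hm
  obtain ⟨g, hg, hg'⟩ := hn
  exact ⟨_, PT.take' hf hg, fun a => by simp [hf', hg']⟩

@[fun_prop]
protected theorem PTU.mul {m n : α → ℕ} (hm : PTU m) (hn : PTU n) : PTU (fun a => m a * n a) := by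
  have hstep : PTF₂ (fun (a : α) (u : Un) => Un.mk (n a + u.val)) :=
    PTU.add (m := fun p : α × Un => n p.1) (n := fun p : α × Un => p.2.val)
      (PTU.comp hn PTF.fst) (PTU.val PTF.snd)
  have key : ∀ (a : α) (i : ℕ), (fun u : Un => Un.mk (n a + u.val))^[i] (Un.mk 0) =
      Un.mk (i * n a) := by
    intro a i
    induction i with
    | zero => simp
    | succ i ih => rw [Function.iterate_succ_apply', ih]; simp only [Un.mk.injEq]; ring
  have h := PTF.iterate' (a := fun _ => Un.mk 0) hm hstep (PTF.const _)
    (PB.mul hm.pb hn.pb) (fun a i hi => by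
      rw [key]
      simp only [sz_un]
      exact Nat.mul_le_mul_right _ hi)
  exact PTF.of_eq h (fun a => by rw [key])

@[fun_prop]
protected theorem PTU.pow {m : α → ℕ} (hm : PTU m) (k : ℕ) : PTU (fun a => m a ^ k) := by
  induction k with
  | zero => simpa using PTU.const 1
  | succ k ih => simpa [pow_succ] using PTU.mul ih hm

protected theorem PTU.eval {m : α → ℕ} (p : Polynomial ℕ) (hm : PTU m) : PTU (fun a => p.eval (m a)) := by
  induction p using Polynomial.induction_on' with
  | add p q hp hq => simpa using PTU.add hp hq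
  | monomial k a => simpa using PTU.mul (PTU.const a) (PTU.pow hm k)

/-- every polynomial bound is dominated by a unary poly-time function -/
protected theorem PB.exists_ptu {f : α → ℕ} (hf : PB f) : ∃ g : α → ℕ, PTU g ∧ ∀ a, f a ≤ g a := by
  obtain ⟨p, hp⟩ := hf
  exact ⟨_, PTU.eval p PTU.sz, hp⟩

@[fun_prop]
protected theorem PTU.cond {c : α → Bool} {m n : α → ℕ} (hc : PTF c) (hm : PTU m) (hn : PTU n) :
    PTU (fun a => bif c a then m a else n a) :=
  PTF.of_eq (PTF.cond hc hm hn) (fun a => by cases h : c a <;> simp [h])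

@[fun_prop]
protected theorem PTU.ite {p : α → Prop} [DecidablePred p] {m n : α → ℕ} (hc : PTPred p) (hm : PTU m)
    (hn : PTU n) : PTU (fun a => if p a then m a else n a) :=
  PTF.of_eq (PTF.ite hc hm hn) (fun a => by by_cases h : p a <;> simp [h])

/-- comparison of unary numbers -/
@[fun_prop]
protected theorem PTU.le {m n : α → ℕ} (hm : PTU m) (hn : PTU n) : PTPred (fun a => m a ≤ n a) := by
  have h := PTU.sub hm hn
  obtain ⟨f, hf, hf'⟩ := h
  refine ⟨fun a => decide (m a - n a = 0), ⟨_, PTB.comp (PTB.eqConst []) hf, fun a => ?_⟩,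
    fun a => by simp; omega⟩
  simp only [hf']
  simp

@[fun_prop]
protected theorem PTU.lt {m n : α → ℕ} (hm : PTU m) (hn : PTU n) : PTPred (fun a => m a < n a) :=
  (PTU.le (PTU.succ hm) hn).of_iff (fun a => by omega)

protected theorem PTU.eq {m n : α → ℕ} (hm : PTU m) (hn : PTU n) : PTPred (fun a => m a = n a) :=
  ((PTU.le hm hn).and (PTU.le hn hm)).of_iff (fun a => by omega)

end unary

/-! ### folds -/

section fold

variable {α β γ δ : Type} [PTCode α] [PTCode β] [PTCode γ] [PTCode δ]

@[fun_prop]
protected theorem PTU.length {l : γ → List α} (hl : PTF l) : PTU (fun c => (l c).length) := by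
  -- iterate over the list, counting
  have hf : PTF₂ (fun (_ : γ) (s : List α × Un) =>
      match s.1 with
      | [] => s
      | _ :: t => (t, Un.mk (s.2.val + 1))) := by
    refine PTF.listCasesOn (s := fun p : γ × List α × Un => p.2.1) (f := fun p => p.2)
      (g := fun p _ t => (t, Un.mk (p.2.2.val + 1))) (by fun_prop) (by fun_prop) ?_
    refine PTF.prodMk (by fun_prop) (PTU.succ (PTU.val ?_))
    fun_prop
  have ha : PTF (fun c => (l c, Un.mk 0)) := PTF.prodMk hl (PTF.const _)
  have key : ∀ (c : γ) (i : ℕ), (fun (s : List α × Un) =>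
      match s.1 with
      | [] => s
      | _ :: t => (t, Un.mk (s.2.val + 1)))^[i] (l c, Un.mk 0) =
      ((l c).drop i, Un.mk (min i (l c).length)) := by
    intro c i
    induction i with
    | zero => simp
    | succ i ih =>
      rw [Function.iterate_succ_apply', ih]
      rcases hd : (l c).drop i with _ | ⟨b, t⟩
      · have h1 : (l c).length ≤ i := by simpa using hd
        simp [List.drop_of_length_le (Nat.le_succ_of_le h1)]
        omega
      · have h1 : i < (l c).length := by
          by_contra h
          rw [List.drop_of_length_le (by omega)] at hd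
          simp at hd
        have h2 : (l c).drop (i + 1) = t := by
          rw [← List.tail_drop, hd]; rfl
        simp [h2]
        omega
  have h := PTF.iterate' (PTF.szU hl) hf ha (B := fun c => 2 * sz (l c) + 1 + sz (l c)) (by
    have := hl.sz
    fun_prop) (fun c i hi => by
      rw [key]
      simp only [sz_prod, sz_un]
      have h1 := sz_drop_le (l c) i
      have h2 := length_le_sz (l c)
      have h3 := Nat.min_le_right i (l c).length
      omega)
  refine PTF.of_eq (PTF.comp PTF.snd h) (fun c => ?_)
  rw [key]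
  simp only [Un.mk.injEq]
  exact min_eq_right (length_le_sz _)

/-- Left fold with a parameter; the sizes of all partial results have to be polynomially
bounded. -/
protected theorem PTF.foldl {l : γ → List α} {f : γ → β → α → β} {b : γ → β} (hl : PTF l)
    (hf : PTF (fun p : γ × β × α => f p.1 p.2.1 p.2.2)) (hb : PTF b) {B : γ → ℕ} (hB : PB B)
    (hbd : ∀ c, ∀ i ≤ (l c).length,
      sz (((l c).take i).foldl (f c) (b c)) ≤ B c) :
    PTF (fun c => (l c).foldl (f c) (b c)) := by
  have hstep : PTF₂ (fun (c : γ) (s : List α × β) =>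
      match s.1 with
      | [] => s
      | a :: t => (t, f c s.2 a)) := by
    refine PTF.listCasesOn (s := fun p : γ × List α × β => p.2.1) (f := fun p => p.2)
      (g := fun p a t => (t, f p.1 p.2.2 a)) (by fun_prop) (by fun_prop) ?_
    fun_prop
  have ha : PTF (fun c => (l c, b c)) := PTF.prodMk hl hb
  have key : ∀ (c : γ) (i : ℕ), (fun (s : List α × β) =>
      match s.1 with
      | [] => s
      | a :: t => (t, f c s.2 a))^[i] (l c, b c) =
      ((l c).drop i, ((l c).take i).foldl (f c) (b c)) := by
    intro c i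
    induction i with
    | zero => simp
    | succ i ih =>
      rw [Function.iterate_succ_apply', ih]
      rcases hd : (l c).drop i with _ | ⟨a, t⟩
      · have h1 : (l c).length ≤ i := by simpa using hd
        simp [List.take_of_length_le h1, List.take_of_length_le (Nat.le_succ_of_le h1),
          List.drop_of_length_le (Nat.le_succ_of_le h1)]
      · have h1 : i < (l c).length := by
          by_contra h
          rw [List.drop_of_length_le (by omega)] at hd
          simp at hd
        have h2 : (l c).drop (i + 1) = t := by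
          rw [← List.tail_drop, hd]; rfl
        have h3 : (l c).take (i + 1) = (l c).take i ++ [a] := by
          rw [List.take_add_one]
          have : (l c)[i]? = some a := by
            have := congrArg List.head? hd
            simpa [List.head?_drop] using this
          simp [this]
        simp [h2, h3]
  have h := PTF.iterate' (PTU.length hl) hstep ha
    (B := fun c => 2 * sz (l c) + 1 + B c) (by
    have := hl.sz
    fun_prop) (fun c i hi => by
      rw [key]
      simp only [sz_prod]
      have h1 := sz_drop_le (l c) i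
      have h2 := hbd c i hi
      omega)
  refine PTF.of_eq (PTF.comp PTF.snd h) (fun c => ?_)
  rw [key]
  simp

end fold

end Crest.Agent.Lib.PT
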