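import Crest.Agent.Lib.PT.ListFns
import Crest.Agent.Lib.PT.Arith

/-!
# More poly-time list functions: additive growth schemes, ranges, sums, update, while-loops
-/

set_option linter.dupNamespace false

namespace Crest.Agent.Lib.PT

section schemes

variable {α β γ δ : Type} [PTCode α] [PTCode β] [PTCode γ] [PTCode δ]

/-- iteration when each step adds at most `G c` to the size -/
protected theorem PTF.iterate_add {n : γ → ℕ} {f : γ → α → α} {a : γ → α}
    (hn : PTU n) (hf : PTF₂ f) (ha : PTF a) {G : γ → ℕ} (hG : PB G)
    (h : ∀ c x, sz (f c x) ≤ sz x + G c) :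
    PTF (fun c => (f c)^[n c] (a c)) := by
  refine PTF.iterate' hn hf ha (B := fun c => sz (a c) + n c * G c) (by fun_prop) ?_
  intro c i hi
  have key : ∀ i, sz ((f c)^[i] (a c)) ≤ sz (a c) + i * G c := by
    intro i
    induction i with
    | zero => simp
    | succ i ih =>
      rw [Function.iterate_succ_apply']
      have := h c ((f c)^[i] (a c))
      have e : (i + 1) * G c = i * G c + G c := by ring
      omega
  refine (key i).trans ?_
  have := Nat.mul_le_mul_right (G c) hi
  omega

/-- left fold when each step adds at most `G c` to the size -/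
protected theorem PTF.foldl_add {l : γ → List α} {f : γ → β → α → β} {b : γ → β} (hl : PTF l)
    (hf : PTF (fun p : γ × β × α => f p.1 p.2.1 p.2.2)) (hb : PTF b) {G : γ → ℕ} (hG : PB G)
    (h : ∀ c b, ∀ a ∈ l c, sz (f c b a) ≤ sz b + G c) :
    PTF (fun c => (l c).foldl (f c) (b c)) := by
  refine PTF.foldl hl hf hb (B := fun c => sz (b c) + sz (l c) * G c) (by fun_prop) ?_
  intro c i _
  have key : ∀ (l' : List α) (x : β), (∀ a ∈ l', a ∈ l c) →
      sz (l'.foldl (f c) x) ≤ sz x + l'.length * G c := by
    intro l'
    induction l' with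
    | nil => intro x _; simp
    | cons a l' ih =>
      intro x hx
      rw [List.foldl_cons]
      have h1 := ih (f c x a) (fun a' ha' => hx a' (by simp [ha']))
      have h2 := h c x a (hx a (by simp))
      have e : (l'.length + 1) * G c = l'.length * G c + G c := by ring
      simp only [List.length_cons]
      omega
  refine (key _ _ (fun a ha => List.mem_of_mem_take ha)).trans ?_
  have h1 : ((l c).take i).length ≤ sz (l c) := by
    have := length_le_sz (l c)
    simp
    omega
  have := Nat.mul_le_mul_right (G c) h1
  omega

/-- right fold when each step adds at most `G c` to the size -/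
protected theorem PTF.foldr_add {l : γ → List α} {f : γ → α → β → β} {b : γ → β} (hl : PTF l)
    (hf : PTF (fun p : γ × α × β => f p.1 p.2.1 p.2.2)) (hb : PTF b) {G : γ → ℕ} (hG : PB G)
    (h : ∀ c b, ∀ a ∈ l c, sz (f c a b) ≤ sz b + G c) :
    PTF (fun c => (l c).foldr (f c) (b c)) := by
  have h1 : PTF (fun c => ((l c).reverse).foldl (fun b a => f c a b) (b c)) := by
    refine PTF.foldl_add (f := fun c b a => f c a b) (PTF.reverse hl) ?_ hb hG ?_
    · exact PTF.comp (g := fun q : γ × α × β => f q.1 q.2.1 q.2.2)
        (f := fun p : γ × β × α => (p.1, p.2.2, p.2.1)) hf (by fun_prop)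
    · intro c x a ha
      exact h c x a (by simpa using ha)
  exact PTF.of_eq h1 (fun c => by rw [List.foldl_reverse])

/-- a left fold into a type with bounded codes (e.g. finite types) -/
protected theorem PTF.foldl_bdd {l : γ → List α} {f : γ → β → α → β} {b : γ → β} (hl : PTF l)
    (hf : PTF (fun p : γ × β × α => f p.1 p.2.1 p.2.2)) (hb : PTF b) {G : γ → ℕ} (hG : PB G)
    (h : ∀ c b, ∀ a ∈ l c, sz b ≤ G c → sz (f c b a) ≤ G c) (h0 : ∀ c, sz (b c) ≤ G c) :
    PTF (fun c => (l c).foldl (f c) (b c)) := by
  refine PTF.foldl hl hf hb hG ?_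
  intro c i _
  have key : ∀ (l' : List α) (x : β), (∀ a ∈ l', a ∈ l c) → sz x ≤ G c →
      sz (l'.foldl (f c) x) ≤ G c := by
    intro l'
    induction l' with
    | nil => intro x _ hx; simpa using hx
    | cons a l' ih =>
      intro x hx hx'
      rw [List.foldl_cons]
      exact ih _ (fun a' ha' => hx a' (by simp [ha'])) (h c x a (hx a (by simp)) hx')
  exact key _ _ (fun a ha => List.mem_of_mem_take ha) (h0 c)

/-- bounded iteration with early exit: `step c` returns `none` when finished -/
def loopOpt (f : α → Option α) : ℕ → α → α
  | 0, a => a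
  | n + 1, a => match f a with
    | none => a
    | some b => loopOpt f n b

omit [PTCode α] in
theorem loopOpt_eq_iterate (f : α → Option α) (n : ℕ) (a : α) :
    loopOpt f n a = (fun x => (f x).getD x)^[n] a := by
  induction n generalizing a with
  | zero => rfl
  | succ n ih =>
    rw [loopOpt, Function.iterate_succ_apply]
    cases h : f a with
    | none =>
      have : (fun x => (f x).getD x) a = a := by simp [h]
      exact (Function.iterate_fixed (f := fun x => (f x).getD x) this n).symm
    | some b => simp only [Option.getD_some]; exact ih b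

protected theorem PTF.loopOpt {n : γ → ℕ} {f : γ → α → Option α} {a : γ → α}
    (hn : PTU n) (hf : PTF₂ f) (ha : PTF a) {B : γ → ℕ} (hB : PB B)
    (hb : ∀ c, ∀ i ≤ n c, sz (loopOpt (f c) i (a c)) ≤ B c) :
    PTF (fun c => loopOpt (f c) (n c) (a c)) := by
  have h := PTF.iterate' (f := fun c x => (f c x).getD x) hn
    (PTF.optionGetD (s := fun p : γ × α => f p.1 p.2) (by fun_prop) (by fun_prop)) ha hB
    (fun c i hi => by
      have := hb c i hi
      rwa [loopOpt_eq_iterate] at this)
  exact PTF.of_eq h (fun c => (loopOpt_eq_iterate _ _ _).symm)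

end schemes

/-! ### ranges, sums -/

section range

variable {α β γ δ : Type} [PTCode α] [PTCode β] [PTCode γ] [PTCode δ]

theorem sz_nat_le (n : ℕ) : sz n ≤ n := by
  rw [sz_nat]
  exact Nat.size_le.2 (Nat.lt_two_pow_self)

theorem sz_range_le (n : ℕ) : sz (List.range n) ≤ n * (2 * n + 1) := by
  have := sz_list_le (l := List.range n) (m := n) (fun a ha =>
    (sz_nat_le a).trans (List.mem_range.1 ha).le)
  simpa using this

protected theorem PTF.range {n : γ → ℕ} (hn : PTU n) : PTF (fun c => List.range (n c)) := by
  have key : ∀ i : ℕ, (fun (s : ℕ × List ℕ) => (s.1 + 1, s.1 :: s.2))^[i] (0, []) =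
      (i, (List.range i).reverse) := by
    intro i
    induction i with
    | zero => simp
    | succ i ih => rw [Function.iterate_succ_apply', ih]; simp [List.range_succ]
  have h := PTF.iterate' (f := fun (_ : γ) (s : ℕ × List ℕ) => (s.1 + 1, s.1 :: s.2))
    (a := fun _ => (0, [])) hn (by
      have h1 : PTF (fun q : γ × ℕ × List ℕ => q.2.1 + 1) :=
        PTF.natAdd (by fun_prop) (by fun_prop)
      pt_prop) (PTF.const _)
    (B := fun c => 2 * n c + 1 + n c * (2 * n c + 1)) (by fun_prop) (fun c i hi => by
      rw [key]
      simp only [sz_prod, sz_reverse]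
      have h1 := sz_nat_le i
      have h2 := sz_range_le i
      have h3 : i * (2 * i + 1) ≤ n c * (2 * n c + 1) := Nat.mul_le_mul hi (by omega)
      omega)
  refine PTF.of_eq (PTF.reverse (PTF.comp (g := fun s : ℕ × List ℕ => s.2) (by fun_prop) h))
    (fun c => ?_)
  rw [key]; simp

/-- quantification over indices below a unary bound -/
protected theorem PTPred.forall_lt {n : γ → ℕ} {p : γ → ℕ → Prop} (hn : PTU n)
    (hp : PTPred (fun q : γ × ℕ => p q.1 q.2)) : PTPred (fun c => ∀ i < n c, p c i) :=
  (PTPred.forall_mem (PTF.range hn) hp).of_iff (fun c => by simp)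

protected theorem PTPred.exists_lt {n : γ → ℕ} {p : γ → ℕ → Prop} (hn : PTU n)
    (hp : PTPred (fun q : γ × ℕ => p q.1 q.2)) : PTPred (fun c => ∃ i < n c, p c i) :=
  (PTPred.exists_mem (PTF.range hn) hp).of_iff (fun c => by simp)

/-- tabulation `[f 0, ..., f (n-1)]` -/
protected theorem PTF.tabulate {n : γ → ℕ} {f : γ → ℕ → α} (hn : PTU n) (hf : PTF₂ f) :
    PTF (fun c => (List.range (n c)).map (f c)) := PTF.map (PTF.range hn) hf

theorem sz_sum_le (l : List ℕ) : sz l.sum ≤ sz l + 1 := by
  have h : l.sum < 2 ^ (sz l + 1) := by
    induction l with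
    | nil => simp
    | cons a l ih =>
      have ha : a < 2 ^ sz a := by rw [sz_nat]; exact Nat.lt_size_self a
      simp only [List.sum_cons, sz_cons]
      have e1 : 2 ^ (2 * sz a + 1 + sz l + 1) = 2 ^ (2 * sz a + 1) * 2 ^ (sz l + 1) := by
        rw [← pow_add]; congr 1
      have e2 : 2 ^ sz a + 1 ≤ 2 ^ (2 * sz a + 1) := by
        have h1 : 2 ^ (2 * sz a + 1) = 2 ^ sz a * 2 ^ (sz a + 1) := by
          rw [← pow_add]; congr 1; ring
        have h2 : 1 ≤ 2 ^ sz a := Nat.one_le_two_pow
        have h3 : 2 ≤ 2 ^ (sz a + 1) := by
          have := pow_succ 2 (sz a)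
          omega
        rw [h1]; nlinarith
      have h4 : 1 ≤ 2 ^ (sz l + 1) := Nat.one_le_two_pow
      rw [e1]
      nlinarith
  rw [sz_nat]
  exact Nat.size_le.2 h

protected theorem PTF.natSum {l : γ → List ℕ} (hl : PTF l) : PTF (fun c => (l c).sum) := by
  have h := PTF.foldr (f := fun (_ : γ) (a b : ℕ) => a + b) (b := fun _ => 0) hl
    (PTF.natAdd (by fun_prop) (by fun_prop)) (PTF.const _) (B := fun c => sz (l c) + 1)
    (by fun_prop) (fun c i _ => by
      have h1 := sz_sum_le ((l c).drop i)
      have h2 := sz_drop_le (l c) i
      rw [List.sum_eq_foldr] at h1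
      exact h1.trans (by omega))
  exact PTF.of_eq h (fun c => by rw [List.sum_eq_foldr])

theorem sz_prod_le (l : List ℕ) : sz l.prod ≤ sz l + 1 := by
  induction l with
  | nil => simp [sz_nat]
  | cons a l ih =>
    simp only [List.prod_cons, sz_cons]
    rw [sz_nat] at ih ⊢
    have := Arith.size_mul_le a l.prod
    rw [← sz_nat a] at this
    omega

protected theorem PTF.natProd {l : γ → List ℕ} (hl : PTF l) : PTF (fun c => (l c).prod) := by
  have h := PTF.foldr (f := fun (_ : γ) (a b : ℕ) => a * b) (b := fun _ => 1) hl
    (PTF.natMul (by fun_prop) (by fun_prop)) (PTF.const _) (B := fun c => sz (l c) + 1)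
    (by fun_prop) (fun c i _ => by
      have h1 := sz_prod_le ((l c).drop i)
      have h2 := sz_drop_le (l c) i
      rw [List.prod_eq_foldr] at h1
      exact h1.trans (by omega))
  exact PTF.of_eq h (fun c => by rw [List.prod_eq_foldr])

/-- number of elements with a property, in unary -/
protected theorem PTU.countP {l : γ → List α} {p : γ → α → Bool} (hl : PTF l) (hp : PTF₂ p) :
    PTU (fun c => (l c).countP (p c)) :=
  (PTU.length (PTF.filter hl hp)).of_eq (fun c => by rw [List.countP_eq_length_filter])

end range

/-! ### update, takeWhile, dropWhile -/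

section update

variable {α β γ δ : Type} [PTCode α] [PTCode β] [PTCode γ] [PTCode δ]

protected theorem PTF.set {l : γ → List α} {n : γ → ℕ} {a : γ → α} (hl : PTF l) (hn : PTU n)
    (ha : PTF a) : PTF (fun c => (l c).set (n c) (a c)) := by
  have h1 := PTF.take hn hl
  have h2 := PTF.tail (PTF.drop hn hl)
  have h3 := PTF.append h1 (PTF.listCons ha h2)
  have h4 := PTF.ite (PTU.lt hn (PTU.length hl)) h3 hl
  refine PTF.of_eq h4 (fun c => ?_)
  split_ifs with h
  · rw [List.tail_drop, List.set_eq_take_append_cons_drop, if_pos h]
  · rw [List.set_eq_of_length_le (by omega)]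

protected theorem PTF.dropWhile {l : γ → List α} {p : γ → α → Bool} (hl : PTF l) (hp : PTF₂ p) :
    PTF (fun c => (l c).dropWhile (p c)) := by
  have key : ∀ (p : α → Bool) (l : List α) (n : ℕ), l.length ≤ n →
      loopOpt (fun l => match l with
        | [] => none
        | a :: t => bif p a then some t else none) n l = l.dropWhile p := by
    intro p l n
    induction n generalizing l with
    | zero =>
      intro h
      have : l = [] := List.length_eq_zero_iff.1 (by omega)
      subst this; rfl
    | succ n ih =>
      intro h
      cases l with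
      | nil => rfl
      | cons a t =>
        rw [loopOpt]
        cases hpa : p a with
        | false => simp [hpa]
        | true =>
          simp only [hpa, cond_true]
          rw [ih t (by simpa using h)]
          simp [hpa]
  have hsz : ∀ (p : α → Bool) (l : List α) (n : ℕ),
      sz (loopOpt (fun l => match l with
        | [] => none
        | a :: t => bif p a then some t else none) n l) ≤ sz l := by
    intro p l n
    induction n generalizing l with
    | zero => exact le_rfl
    | succ n ih =>
      cases l with
      | nil => exact le_rfl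
      | cons a t =>
        rw [loopOpt]
        cases hpa : p a with
        | false => simp [hpa]
        | true =>
          simp only [hpa, cond_true]
          refine (ih t).trans ?_
          simp
  have h := PTF.loopOpt (n := fun c => (l c).length) (f := fun (c : γ) (l : List α) => match l with
      | [] => none
      | a :: t => bif p c a then some t else none) (a := l) (PTU.length hl)
    (PTF.listCasesOn (s := fun q : γ × List α => q.2) (f := fun _ => none)
      (g := fun q a t => bif p q.1 a then some t else none) (by fun_prop) (by fun_prop)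
      (by fun_prop)) hl (B := fun c => sz (l c)) (by fun_prop) (fun c i _ => hsz _ _ _)
  exact PTF.of_eq h (fun c => key _ _ _ le_rfl)

protected theorem PTF.takeWhile {l : γ → List α} {p : γ → α → Bool} (hl : PTF l) (hp : PTF₂ p) :
    PTF (fun c => (l c).takeWhile (p c)) := by
  have h := PTF.take (PTU.sub (PTU.length hl) (PTU.length (PTF.dropWhile hl hp))) hl
  refine PTF.of_eq h (fun c => ?_)
  have h1 : (l c).takeWhile (p c) ++ (l c).dropWhile (p c) = l c := List.takeWhile_append_dropWhile
  have h2 : (l c).length = ((l c).takeWhile (p c)).length + ((l c).dropWhile (p c)).length := by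
    conv_lhs => rw [← h1]
    rw [List.length_append]
  have h3 : (l c).length - ((l c).dropWhile (p c)).length = ((l c).takeWhile (p c)).length := by
    omega
  rw [h3]
  conv_lhs => rw [← h1]
  generalize hA : (l c).takeWhile (p c) = A at *
  rw [h1, hA, ← h1]
  exact List.take_left

/-- binary value of a list of bits (least significant first) -/
protected theorem PTF.ofBits {l : γ → List Bool} (hl : PTF l) :
    PTF (fun c => (l c).foldr (fun b n => Nat.bit b n) 0) := by
  refine PTF.foldr_add (f := fun (_ : γ) (b : Bool) (n : ℕ) => Nat.bit b n) hl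
    (PTF.comp (g := fun q : Bool × ℕ => Nat.bit q.1 q.2)
      (f := fun p : γ × Bool × ℕ => p.2) Arith.ptf_bit (by fun_prop)) (PTF.const _)
    (G := fun _ => 1) (PB.const 1) ?_
  intro c b a _
  rw [sz_nat, sz_nat]
  exact Arith.size_bit_le _ _

/-- the bits of a number as a coded list -/
protected theorem PTF.natBits {n : γ → ℕ} (hn : PTF n) : PTF (fun c => (n c).bits) :=
  PTF.encode hn

/-- minimise a key over a nonempty list: keeps the first minimiser -/
protected theorem PTF.argmin {l : γ → List α} {k : γ → α → ℕ} (hl : PTF l) (hk : PTF₂ k) :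
    PTF (fun c => (l c).foldl (fun (o : Option α) a =>
      match o with
      | none => some a
      | some b => bif decide (k c a < k c b) then some a else some b) none) := by
  refine PTF.foldl_bdd (f := fun (c : γ) (o : Option α) a =>
      match o with
      | none => some a
      | some b => bif decide (k c a < k c b) then some a else some b) hl ?_ (PTF.const none)
    (G := fun c => sz (l c) + 1) (by fun_prop) ?_ (by intro c; simp)
  · refine PTF.optionCasesOn (s := fun q : γ × Option α × α => q.2.1) (f := fun q => some q.2.2)
      (g := fun q b => bif decide (k q.1 q.2.2 < k q.1 b) then some q.2.2 else some b)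
      (by fun_prop) (by fun_prop) ?_
    have h1 : PTF (fun q : (γ × Option α × α) × α => decide (k q.1.1 q.1.2.2 < k q.1.1 q.2)) :=
      (PTPred.natLt (by fun_prop) (by fun_prop)).toPTF
    pt_prop
  · intro c o a ha ho
    have h1 : sz a ≤ sz (l c) := sz_mem_le ha
    cases o with
    | none => simp; omega
    | some b =>
      simp only
      cases decide (k c a < k c b)
      · simpa using ho
      · simp; omega

end update

end Crest.Agent.Lib.PT
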