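import Crest.Agent.Lib.PT.Core

/-!
# Raw bit-string functions on top of the core

Everything here is about total functions `List Bool → List Bool` and the predicate `PT`.
-/

set_option linter.dupNamespace false

namespace Crest.Agent.Lib.PT

/-! ### the pairing -/

theorem pair_nil (y : List Bool) : pair [] y = false :: y := rfl

theorem pair_cons (b : Bool) (x y : List Bool) : pair (b :: x) y = true :: b :: pair x y := rfl

@[simp] theorem fst_pair (x y : List Bool) : fst (pair x y) = x := by
  induction x with
  | nil => simp [pair_nil, fst]
  | cons b x ih => simp [pair_cons, fst, ih]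

@[simp] theorem snd_pair (x y : List Bool) : snd (pair x y) = y := by
  induction x with
  | nil => simp [pair_nil, snd]
  | cons b x ih => simp [pair_cons, snd, ih]

theorem pair_inj {x y x' y' : List Bool} (h : pair x y = pair x' y') : x = x' ∧ y = y' := by
  have h1 := congrArg fst h
  have h2 := congrArg snd h
  simpa using And.intro h1 h2

@[simp] theorem length_pair (x y : List Bool) :
    (pair x y).length = 2 * x.length + 1 + y.length := by
  induction x with
  | nil => simp [pair_nil]; omega
  | cons b x ih => simp [pair_cons, ih]; omega

theorem pair_ne_nil (x y : List Bool) : pair x y ≠ [] := by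
  cases x <;> simp [pair_nil, pair_cons]

theorem length_fst_add_snd (z : List Bool) :
    2 * (fst z).length + (snd z).length ≤ z.length := by
  induction z using fst.induct with
  | case1 b r ih => simp only [fst, snd, List.length_cons]; omega
  | case2 z hz =>
    match z, hz with
    | [], _ => simp [fst, snd]
    | [true], _ => simp [fst, snd]
    | false :: y, _ => simp [fst, snd]
    | true :: b :: r, hz => exact (hz b r rfl).elim

theorem length_fst_le (z : List Bool) : (fst z).length ≤ z.length := by
  have := length_fst_add_snd z; omega

theorem length_snd_le (z : List Bool) : (snd z).length ≤ z.length := by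
  have := length_fst_add_snd z; omega

/-! ### growth bounds for iterates -/

theorem iterate_length_le {f : List Bool → List Bool} {c : ℕ}
    (h : ∀ x, (f x).length ≤ x.length + c) (x : List Bool) (i : ℕ) :
    (f^[i] x).length ≤ x.length + c * i := by
  induction i generalizing x with
  | zero => simp
  | succ i ih =>
    rw [Function.iterate_succ_apply]
    have h1 := ih (f x)
    have h2 := h x
    have : c * (i + 1) = c * i + c := by ring
    omega

protected theorem PT.iter_add {f : List Bool → List Bool} (hf : PT f) {c : ℕ}
    (h : ∀ x, (f x).length ≤ x.length + c) :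
    PT (fun z => f^[(Crest.Agent.Lib.PT.fst z).length] (Crest.Agent.Lib.PT.snd z)) := by
  refine PT.iter hf ⟨Polynomial.C (c + 1) * Polynomial.X, fun x n i hi => ?_⟩
  have h1 := iterate_length_le h x i
  simp only [Polynomial.eval_mul, Polynomial.eval_C, Polynomial.eval_X]
  have h2 : c * i ≤ c * n := Nat.mul_le_mul_left c hi
  nlinarith

protected theorem PT.of_eq {f g : List Bool → List Bool} (hf : PT f) (h : ∀ x, f x = g x) : PT g := by
  have : f = g := funext h
  rwa [← this]

protected theorem PT.comp' {g f : List Bool → List Bool} (hg : PT g) (hf : PT f) {h : List Bool → List Bool}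
    (e : ∀ x, g (f x) = h x) : PT h := (PT.comp hg hf).of_eq e

protected theorem PT.fst' {f : List Bool → List Bool} (hf : PT f) :
    PT (fun x => Crest.Agent.Lib.PT.fst (f x)) := PT.comp PT.fst hf

protected theorem PT.snd' {f : List Bool → List Bool} (hf : PT f) :
    PT (fun x => Crest.Agent.Lib.PT.snd (f x)) := PT.comp PT.snd hf

protected theorem PT.cons' (b : Bool) {f : List Bool → List Bool} (hf : PT f) :
    PT (fun x => b :: f x) := PT.comp (PT.cons b) hf

protected theorem PT.tail' {f : List Bool → List Bool} (hf : PT f) :
    PT (fun x => (f x).tail) := PT.comp PT.tail hf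

/-! ### case analysis -/

/-- `[true]` if nonempty, `[]` if empty. -/
def nonemptyTest (x : List Bool) : List Bool := if x = [] then [] else [true]

protected theorem PT.nonemptyTest : PT nonemptyTest := by
  have h1 : PT (fun z => (fun _ : List Bool => [true])^[(Crest.Agent.Lib.PT.fst z).length]
      (Crest.Agent.Lib.PT.snd z)) :=
    PT.iter_add (c := 1) (PT.const [true]) (by intro x; simp)
  have h2 : PT (fun x => Crest.Agent.Lib.PT.pair x []) := PT.pair PT.id (PT.const [])
  refine PT.comp' h1 h2 (fun x => ?_)
  simp only [fst_pair, snd_pair]
  unfold nonemptyTest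
  cases x with
  | nil => simp
  | cons b x =>
    simp only [List.length_cons, reduceCtorEq, if_false]
    rw [Function.iterate_succ_apply']

/-- Case distinction on the first symbol of `c x`. -/
protected theorem PT.cases {c f0 f1 f2 : List Bool → List Bool} (hc : PT c) (h0 : PT f0) (h1 : PT f1)
    (h2 : PT f2) :
    PT (fun x => match (c x) with
      | [] => f0 x
      | true :: _ => f1 x
      | false :: _ => f2 x) := by
  have key : PT (fun x => if (c x).head? = some true then f1 x else
      (if (nonemptyTest (c x)).head? = some true then f2 x else f0 x)) :=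
    PT.ite hc h1 (PT.ite (PT.comp PT.nonemptyTest hc) h2 h0)
  refine key.of_eq (fun x => ?_)
  rcases c x with _ | ⟨b, t⟩
  · simp [nonemptyTest]
  · cases b <;> simp [nonemptyTest]

/-- boolean-valued test realised by a bit string function with values `[true]`/`[false]`. -/
def PTB (p : List Bool → Bool) : Prop := PT (fun x => [p x])

protected theorem PTB.ite {p : List Bool → Bool} {f g : List Bool → List Bool} (hp : PTB p) (hf : PT f)
    (hg : PT g) : PT (fun x => if p x then f x else g x) := by
  refine (PT.ite hp hf hg).of_eq (fun x => ?_)
  cases h : p x <;> simp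

protected theorem PTB.of_eq {p q : List Bool → Bool} (hp : PTB p) (h : ∀ x, p x = q x) : PTB q := by
  have : p = q := funext h
  rwa [← this]

protected theorem PTB.const (b : Bool) : PTB (fun _ => b) := PT.const [b]

protected theorem PTB.comp {p : List Bool → Bool} {f : List Bool → List Bool} (hp : PTB p) (hf : PT f) :
    PTB (fun x => p (f x)) := PT.comp hp hf

protected theorem PTB.not {p : List Bool → Bool} (hp : PTB p) : PTB (fun x => !p x) := by
  refine PT.of_eq (PTB.ite hp (PT.const [false]) (PT.const [true])) (fun x => ?_)
  cases h : p x <;> simp [h]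

protected theorem PTB.and {p q : List Bool → Bool} (hp : PTB p) (hq : PTB q) :
    PTB (fun x => p x && q x) := by
  refine PT.of_eq (PTB.ite hp hq (PT.const [false])) (fun x => ?_)
  cases h : p x <;> simp [h]

protected theorem PTB.or {p q : List Bool → Bool} (hp : PTB p) (hq : PTB q) :
    PTB (fun x => p x || q x) := by
  refine PT.of_eq (PTB.ite hp (PT.const [true]) hq) (fun x => ?_)
  cases h : p x <;> simp [h]

/-- equality with a fixed string -/
protected theorem PTB.eqConst (c : List Bool) : PTB (fun x => decide (x = c)) := by
  induction c with
  | nil =>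
    refine (PT.cases PT.id (PT.const [true]) (PT.const [false]) (PT.const [false])).of_eq
      (fun x => ?_)
    rcases x with _ | ⟨b, t⟩
    · simp
    · cases b <;> simp
  | cons b c ih =>
    have h1 : PT (fun x => [decide (x.tail = c)]) := PT.comp ih PT.tail
    cases b with
    | true =>
      refine (PT.cases PT.id (PT.const [false]) h1 (PT.const [false])).of_eq (fun x => ?_)
      rcases x with _ | ⟨b, t⟩
      · simp
      · cases b
        · simp
        · simp
    | false =>
      refine (PT.cases PT.id (PT.const [false]) (PT.const [false]) h1).of_eq (fun x => ?_)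
      rcases x with _ | ⟨b, t⟩
      · simp
      · cases b
        · simp
        · simp

/-- finite table lookup -/
protected theorem PT.table (L : List (List Bool × List Bool)) (d : List Bool) :
    PT (fun x => ((L.find? (fun q => decide (x = q.1))).map Prod.snd).getD d) := by
  induction L with
  | nil => exact (PT.const d).of_eq (fun x => by simp)
  | cons q L ih =>
    refine (PTB.ite (PTB.eqConst q.1) (PT.const q.2) ih).of_eq (fun x => ?_)
    by_cases h : x = q.1
    · simp [h]
    · simp [h]

/-! ### moving a symbol, reversing, taking, appending -/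

/-- state `pair acc src`: move the first symbol of `src` to `acc` -/
def moveStep (s : List Bool) : List Bool :=
  match snd s with
  | [] => pair (fst s) []
  | true :: t => pair (true :: fst s) t
  | false :: t => pair (false :: fst s) t

protected theorem PT.moveStep : PT moveStep := by
  have ht : PT (fun s => (Crest.Agent.Lib.PT.snd s).tail) := PT.comp PT.tail PT.snd
  refine (PT.cases PT.snd (PT.pair PT.fst (PT.const [])) (PT.pair (PT.cons' true PT.fst) ht)
    (PT.pair (PT.cons' false PT.fst) ht)).of_eq (fun s => ?_)
  unfold moveStep
  rcases Crest.Agent.Lib.PT.snd s with _ | ⟨b, t⟩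
  · simp
  · cases b <;> simp

theorem moveStep_pair_nil (acc : List Bool) : moveStep (pair acc []) = pair acc [] := by
  simp [moveStep]

theorem moveStep_pair_cons (acc : List Bool) (b : Bool) (t : List Bool) :
    moveStep (pair acc (b :: t)) = pair (b :: acc) t := by
  cases b <;> simp [moveStep]

theorem moveStep_length (s : List Bool) : (moveStep s).length ≤ s.length + 2 := by
  have h := length_fst_add_snd s
  unfold moveStep
  rcases hs : snd s with _ | ⟨b, t⟩
  · rw [hs] at h; simp at h ⊢; omega
  · rw [hs] at h
    cases b <;> simp at h ⊢ <;> omega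

theorem moveStep_iterate (acc src : List Bool) (n : ℕ) :
    moveStep^[n] (pair acc src) = pair ((src.take n).reverse ++ acc) (src.drop n) := by
  induction n generalizing acc src with
  | zero => simp
  | succ n ih =>
    rw [Function.iterate_succ_apply]
    cases src with
    | nil => rw [moveStep_pair_nil, ih]; simp
    | cons b t => rw [moveStep_pair_cons, ih]; simp

/-- `(snd z).take (fst z).length`, reversed, together with the rest. -/
protected theorem PT.moveN : PT (fun z => Crest.Agent.Lib.PT.pair
    (((Crest.Agent.Lib.PT.snd z).take (Crest.Agent.Lib.PT.fst z).length).reverse)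
    ((Crest.Agent.Lib.PT.snd z).drop (Crest.Agent.Lib.PT.fst z).length)) := by
  have h1 := PT.iter_add (c := 2) PT.moveStep moveStep_length
  have h2 : PT (fun z => Crest.Agent.Lib.PT.pair (Crest.Agent.Lib.PT.fst z)
      (Crest.Agent.Lib.PT.pair [] (Crest.Agent.Lib.PT.snd z))) :=
    PT.pair PT.fst (PT.pair (PT.const []) PT.snd)
  refine PT.comp' h1 h2 (fun z => ?_)
  simp [moveStep_iterate]

protected theorem PT.reverse : PT List.reverse := by
  have h : PT (fun x => Crest.Agent.Lib.PT.pair x x) := PT.pair PT.id PT.id
  have h' := PT.fst' (PT.comp PT.moveN h)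
  refine h'.of_eq (fun x => ?_)
  simp

/-- `take` with unary counter -/
protected theorem PT.take : PT (fun z => (Crest.Agent.Lib.PT.snd z).take (Crest.Agent.Lib.PT.fst z).length) := by
  refine (PT.comp PT.reverse (PT.fst' PT.moveN)).of_eq (fun z => ?_)
  simp

protected theorem PT.drop : PT (fun z => (Crest.Agent.Lib.PT.snd z).drop (Crest.Agent.Lib.PT.fst z).length) := by
  refine (PT.snd' PT.moveN).of_eq (fun z => ?_)
  simp

protected theorem PT.take' {f g : List Bool → List Bool} (hf : PT f) (hg : PT g) :
    PT (fun x => (g x).take (f x).length) := by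
  refine (PT.comp PT.take (PT.pair hf hg)).of_eq (fun x => ?_)
  simp

protected theorem PT.drop' {f g : List Bool → List Bool} (hf : PT f) (hg : PT g) :
    PT (fun x => (g x).drop (f x).length) := by
  refine (PT.comp PT.drop (PT.pair hf hg)).of_eq (fun x => ?_)
  simp

/-- append -/
protected theorem PT.append' {f g : List Bool → List Bool} (hf : PT f) (hg : PT g) :
    PT (fun x => f x ++ g x) := by
  -- start with `pair (g x) (reverse (f x))` and move everything
  have h1 := PT.iter_add (c := 2) PT.moveStep moveStep_length
  have hr : PT (fun x => (f x).reverse) := PT.comp PT.reverse hf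
  have h2 : PT (fun x => Crest.Agent.Lib.PT.pair (f x)
      (Crest.Agent.Lib.PT.pair (g x) (f x).reverse)) :=
    PT.pair hf (PT.pair hg hr)
  refine (PT.fst' (PT.comp h1 h2)).of_eq (fun x => ?_)
  simp [moveStep_iterate, List.take_of_length_le]

/-! ### unary arithmetic: strings of prescribed polynomial length -/

/-- state `pair y s`, step: `pair y (y ++ s)` -/
def appStep (s : List Bool) : List Bool := pair (fst s) (fst s ++ snd s)

protected theorem PT.appStep : PT appStep := PT.pair PT.fst (PT.append' PT.fst PT.snd)

theorem appStep_fst (s : List Bool) (i : ℕ) : 0 < i → fst (appStep^[i] s) = fst s := by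
  intro hi
  obtain ⟨j, rfl⟩ : ∃ j, i = j + 1 := ⟨i - 1, by omega⟩
  clear hi
  induction j with
  | zero => simp [appStep]
  | succ j ih => rw [Function.iterate_succ_apply']; simp [appStep] at ih ⊢; exact ih

theorem appStep_fst' (s : List Bool) (i : ℕ) : fst (appStep^[i] s) = fst s := by
  rcases Nat.eq_zero_or_pos i with rfl | hi
  · rfl
  · exact appStep_fst s i hi

theorem appStep_length (s : List Bool) (i : ℕ) :
    (appStep^[i] s).length ≤ s.length + i * (1 + s.length) := by
  induction i with
  | zero => simp
  | succ i ih =>
    rw [Function.iterate_succ_apply']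
    have h1 : (appStep (appStep^[i] s)).length ≤ (appStep^[i] s).length + (1 + s.length) := by
      have h2 := length_fst_add_snd (appStep^[i] s)
      have h3 := appStep_fst' s i
      have h4 := length_fst_le s
      generalize appStep^[i] s = t at h2 h3 ⊢
      simp only [appStep, h3, length_pair, List.length_append] at h2 ⊢
      omega
    have : (i + 1) * (1 + s.length) = i * (1 + s.length) + (1 + s.length) := by ring
    omega

theorem appStep_iterate_pair (y s : List Bool) (n : ℕ) :
    (snd (appStep^[n] (pair y s))).length = n * y.length + s.length := by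
  induction n with
  | zero => simp
  | succ n ih =>
    rw [Function.iterate_succ_apply']
    have h3 := appStep_fst' (pair y s) n
    simp only [fst_pair] at h3
    unfold appStep
    change (snd (pair (fst (appStep^[n] (pair y s)))
      (fst (appStep^[n] (pair y s)) ++ snd (appStep^[n] (pair y s))))).length = _
    rw [h3]
    simp [ih]
    ring

/-- a string whose length is the product of two lengths -/
protected theorem PT.mulLen {f g : List Bool → List Bool} (hf : PT f) (hg : PT g) :
    ∃ h, PT h ∧ ∀ x, (h x).length = (f x).length * (g x).length := by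
  have h1 : PT (fun z => appStep^[(Crest.Agent.Lib.PT.fst z).length]
      (Crest.Agent.Lib.PT.snd z)) := by
    refine PT.iter PT.appStep ⟨Polynomial.X + Polynomial.X * (1 + Polynomial.X), ?_⟩
    intro x n i hi
    refine (appStep_length x i).trans ?_
    simp only [Polynomial.eval_add, Polynomial.eval_mul, Polynomial.eval_X, Polynomial.eval_one]
    have : i * (1 + x.length) ≤ (x.length + n) * (1 + (x.length + n)) :=
      Nat.mul_le_mul (by omega) (by omega)
    omega
  have h2 : PT (fun x => Crest.Agent.Lib.PT.pair (f x) (Crest.Agent.Lib.PT.pair (g x) [])) :=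
    PT.pair hf (PT.pair hg (PT.const []))
  refine ⟨_, PT.snd' (PT.comp h1 h2), fun x => ?_⟩
  simp only [fst_pair, snd_pair]
  rw [appStep_iterate_pair]
  simp

/-- for every polynomial there is a poly-time string function at least that long -/
protected theorem PT.polyLen (p : Polynomial ℕ) :
    ∃ h, PT h ∧ ∀ x, p.eval x.length = (h x).length := by
  induction p using Polynomial.induction_on with
  | C a => exact ⟨_, PT.const (List.replicate a true), fun x => by simp⟩
  | add p q hp hq =>
    obtain ⟨f, hf, hf'⟩ := hp
    obtain ⟨g, hg, hg'⟩ := hq
    exact ⟨_, PT.append' hf hg, fun x => by simp [hf', hg']⟩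
  | monomial n a ih =>
    obtain ⟨f, hf, hf'⟩ := ih
    obtain ⟨h, hh, hh'⟩ := PT.mulLen hf PT.id
    refine ⟨h, hh, fun x => ?_⟩
    rw [hh', ← hf' x]
    simp [pow_succ, mul_assoc]

end Crest.Agent.Lib.PT
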