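import Crest.Agent.Lib.PT.Raw

/-!
# Typed layer: codes and poly-time functions between coded types

`PTF f` for `f : α → β` says that some `g` with `PT g` satisfies `g (enc a) = enc (f a)`.
-/

set_option linter.dupNamespace false

namespace Crest.Agent.Lib.PT

/-- A type with an injective bit-string code. -/
class PTCode (α : Type) where
  /-- the code -/
  enc : α → List Bool
  /-- codes are injective -/
  inj : Function.Injective enc

/-- the code of an element -/
def enc {α : Type} [PTCode α] (a : α) : List Bool := PTCode.enc a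

theorem enc_injective {α : Type} [PTCode α] : Function.Injective (enc : α → List Bool) :=
  PTCode.inj

@[simp] theorem enc_inj {α : Type} [PTCode α] {a b : α} : enc a = enc b ↔ a = b :=
  enc_injective.eq_iff

/-- size of the code -/
def sz {α : Type} [PTCode α] (a : α) : ℕ := (enc a).length

/-- `f` is computable in polynomial time on codes. -/
@[fun_prop]
def PTF {α β : Type} [PTCode α] [PTCode β] (f : α → β) : Prop :=
  ∃ g, PT g ∧ ∀ a, g (enc a) = enc (f a)

/-- transport a code along an injection -/
@[reducible] def PTCode.ofInj {α β : Type} [PTCode β] (e : α → β) (he : Function.Injective e) : PTCode α where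
  enc a := enc (e a)
  inj := enc_injective.comp he

/-! ### basic instances -/

/-- raw bit strings, coded by themselves -/
structure Bits where
  /-- the underlying list -/
  val : List Bool

instance : PTCode Bits where
  enc x := x.val
  inj := by
    rintro ⟨a⟩ ⟨b⟩ h
    exact congrArg Bits.mk h

instance : PTCode Unit where
  enc _ := []
  inj _ _ _ := rfl

instance : PTCode Bool where
  enc b := [b]
  inj a b h := by simpa using h

instance {α β : Type} [PTCode α] [PTCode β] : PTCode (α × β) where
  enc p := pair (enc p.1) (enc p.2)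
  inj := by
    rintro ⟨a, b⟩ ⟨a', b'⟩ h
    obtain ⟨h1, h2⟩ := pair_inj h
    simp only [enc_inj] at h1 h2
    rw [h1, h2]

/-- binary natural numbers, least significant bit first -/
instance : PTCode ℕ where
  enc n := n.bits
  inj := by
    intro a b h
    have := congrArg (List.foldr (fun b n => Nat.bit b n) 0) h
    have key : ∀ n : ℕ, List.foldr (fun b n => Nat.bit b n) 0 n.bits = n := by
      intro n
      induction n using Nat.binaryRec' with
      | zero => simp
      | bit b n h ih => rw [Nat.bits_append_bit n b h]; simp [ih]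
    simpa [key] using this

/-- unary natural numbers -/
structure Un where
  /-- the value -/
  val : ℕ

instance : PTCode Un where
  enc n := List.replicate n.val true
  inj := by
    intro a b h
    have := congrArg List.length h
    cases a; cases b
    simpa using this

instance {α : Type} [PTCode α] : PTCode (Option α) where
  enc o := match o with
    | none => []
    | some a => true :: enc a
  inj := by
    rintro (_ | a) (_ | b) h <;> simp_all

instance {α β : Type} [PTCode α] [PTCode β] : PTCode (α ⊕ β) where
  enc o := match o with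
    | Sum.inl a => false :: enc a
    | Sum.inr b => true :: enc b
  inj := by
    rintro (a | a) (b | b) h <;> simp_all

/-- code of a list -/
def encList {α : Type} [PTCode α] : List α → List Bool
  | [] => []
  | a :: l => pair (enc a) (encList l)

instance {α : Type} [PTCode α] : PTCode (List α) where
  enc := encList
  inj := by
    intro l
    induction l with
    | nil =>
      intro l' h
      cases l' with
      | nil => rfl
      | cons a l => exact absurd h.symm (pair_ne_nil _ _)
    | cons a l ih =>
      intro l' h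
      cases l' with
      | nil => exact absurd h (pair_ne_nil _ _)
      | cons a' l' =>
        obtain ⟨h1, h2⟩ := pair_inj h
        rw [enc_inj.1 h1, ih h2]

instance (n : ℕ) : PTCode (Fin n) := PTCode.ofInj (fun i => (i : ℕ)) Fin.val_injective

instance {α : Type} [PTCode α] (p : α → Prop) : PTCode (Subtype p) :=
  PTCode.ofInj Subtype.val Subtype.val_injective

@[simp] theorem enc_bits (x : Bits) : enc x = x.val := rfl
@[simp] theorem enc_unit (x : Unit) : enc x = [] := rfl
@[simp] theorem enc_bool (b : Bool) : enc b = [b] := rfl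
@[simp] theorem enc_prod {α β : Type} [PTCode α] [PTCode β] (p : α × β) :
    enc p = pair (enc p.1) (enc p.2) := rfl
theorem enc_nat (n : ℕ) : enc n = n.bits := rfl
@[simp] theorem enc_un (n : Un) : enc n = List.replicate n.val true := rfl
@[simp] theorem enc_none {α : Type} [PTCode α] : enc (none : Option α) = [] := rfl
@[simp] theorem enc_some {α : Type} [PTCode α] (a : α) : enc (some a) = true :: enc a := rfl
@[simp] theorem enc_inl {α β : Type} [PTCode α] [PTCode β] (a : α) :
    enc (Sum.inl a : α ⊕ β) = false :: enc a := rfl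
@[simp] theorem enc_inr {α β : Type} [PTCode α] [PTCode β] (b : β) :
    enc (Sum.inr b : α ⊕ β) = true :: enc b := rfl
@[simp] theorem enc_nil {α : Type} [PTCode α] : enc ([] : List α) = [] := rfl
@[simp] theorem enc_cons {α : Type} [PTCode α] (a : α) (l : List α) :
    enc (a :: l) = pair (enc a) (enc l) := rfl
theorem enc_fin {n : ℕ} (i : Fin n) : enc i = (i : ℕ).bits := rfl
theorem enc_subtype {α : Type} [PTCode α] {p : α → Prop} (a : Subtype p) :
    enc a = enc a.1 := rfl

/-! ### the category structure -/

section basic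

variable {α β γ δ : Type} [PTCode α] [PTCode β] [PTCode γ] [PTCode δ]

protected theorem PTF.of_eq {f g : α → β} (hf : PTF f) (h : ∀ a, f a = g a) : PTF g := by
  have : f = g := funext h
  rwa [← this]

@[fun_prop]
protected theorem PTF.id : PTF (fun a : α => a) := ⟨_, PT.id, fun _ => rfl⟩

@[fun_prop]
protected theorem PTF.const (b : β) : PTF (fun _ : α => b) := ⟨_, PT.const (enc b), fun _ => rfl⟩

@[fun_prop]
protected theorem PTF.comp {g : β → γ} {f : α → β} (hg : PTF g) (hf : PTF f) : PTF (fun a => g (f a)) := by
  obtain ⟨g', hg', hg⟩ := hg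
  obtain ⟨f', hf', hf⟩ := hf
  exact ⟨_, PT.comp hg' hf', fun a => by rw [hf, hg]⟩

@[fun_prop]
protected theorem PTF.fst : PTF (fun p : α × β => p.1) := ⟨_, PT.fst, fun p => by simp⟩

@[fun_prop]
protected theorem PTF.snd : PTF (fun p : α × β => p.2) := ⟨_, PT.snd, fun p => by simp⟩

@[fun_prop]
protected theorem PTF.prodMk {f : α → β} {g : α → γ} (hf : PTF f) (hg : PTF g) :
    PTF (fun a => (f a, g a)) := by
  obtain ⟨g', hg', hg⟩ := hg
  obtain ⟨f', hf', hf⟩ := hf
  exact ⟨_, PT.pair hf' hg', fun a => by rw [hf, hg]; rfl⟩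

end basic

section more

variable {α β γ δ ε : Type} [PTCode α] [PTCode β] [PTCode γ] [PTCode δ] [PTCode ε]

/-- two-argument version -/
@[reducible] def PTF₂ (f : α → β → γ) : Prop := PTF (fun p : α × β => f p.1 p.2)

/-- `fun_prop` after unfolding `PTF₂` -/
macro "pt_prop" : tactic => `(tactic| ((try dsimp only [PTF₂]); fun_prop))

protected theorem PTF.comp₂ {f : β → γ → δ} (hf : PTF₂ f) {g : α → β} {h : α → γ} (hg : PTF g)
    (hh : PTF h) : PTF (fun a => f (g a) (h a)) :=
  PTF.comp (f := fun a => (g a, h a)) hf (PTF.prodMk hg hh)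

/-- polynomial bound on the size of the output -/
protected theorem PTF.bound {f : α → β} (hf : PTF f) : ∃ p : Polynomial ℕ, ∀ a, sz (f a) ≤ p.eval (sz a) := by
  obtain ⟨g, hg, h⟩ := hf
  obtain ⟨p, hp⟩ := PT.bound hg
  exact ⟨p, fun a => by rw [sz, ← h]; exact hp _⟩

/-! ### raw functions -/

protected theorem PT.toPTF {f : List Bool → List Bool} (hf : PT f) :
    PTF (fun x : Bits => Bits.mk (f x.val)) :=
  ⟨f, hf, fun _ => rfl⟩

protected theorem PTF.toPT {f : List Bool → List Bool} (hf : PTF (fun x : Bits => Bits.mk (f x.val))) :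
    PT f := by
  obtain ⟨g, hg, h⟩ := hf
  exact hg.of_eq (fun x => h ⟨x⟩)

/-- the code as a function to raw bit strings -/
def toBits (a : α) : Bits := ⟨enc a⟩

@[fun_prop]
protected theorem PTF.toBits : PTF (fun a : α => toBits a) :=
  ⟨_, PT.id, fun _ => rfl⟩

/-! ### booleans -/

@[fun_prop]
protected theorem PTF.cond {c : α → Bool} {f g : α → β} (hc : PTF c) (hf : PTF f) (hg : PTF g) :
    PTF (fun a => bif c a then f a else g a) := by
  obtain ⟨c', hc', hc⟩ := hc
  obtain ⟨f', hf', hf⟩ := hf
  obtain ⟨g', hg', hg⟩ := hg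
  refine ⟨_, PT.ite hc' hf' hg', fun a => ?_⟩
  simp only [hc, enc_bool]
  cases c a <;> simp [hf, hg]

/-- poly-time decidable predicates -/
@[fun_prop]
def PTPred (p : α → Prop) : Prop := ∃ f : α → Bool, PTF f ∧ ∀ a, p a ↔ f a = true

@[fun_prop]
protected theorem PTPred.toPTF {p : α → Prop} [DecidablePred p] (hp : PTPred p) :
    PTF (fun a => decide (p a)) := by
  obtain ⟨f, hf, h⟩ := hp
  exact hf.of_eq (fun a => by simp [h])

protected theorem PTPred.of_ptf {p : α → Prop} [DecidablePred p] (hp : PTF (fun a => decide (p a))) :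
    PTPred p := ⟨_, hp, fun a => by simp⟩

@[fun_prop]
protected theorem PTF.toPTPred {f : α → Bool} (hf : PTF f) : PTPred (fun a => f a = true) :=
  ⟨f, hf, fun _ => Iff.rfl⟩

protected theorem PTPred.iff_ptf {f : α → Bool} : PTPred (fun a => f a = true) ↔ PTF f := by
  refine ⟨fun h => h.toPTF.of_eq (fun a => by simp), PTF.toPTPred⟩

protected theorem PTPred.of_iff {p q : α → Prop} (hp : PTPred p) (h : ∀ a, p a ↔ q a) : PTPred q := by
  have : p = q := funext fun a => propext (h a)
  rwa [← this]

@[fun_prop]
protected theorem PTF.ite {p : α → Prop} [DecidablePred p] {f g : α → β} (hc : PTPred p) (hf : PTF f)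
    (hg : PTF g) : PTF (fun a => if p a then f a else g a) :=
  (PTF.cond hc.toPTF hf hg).of_eq (fun a => by by_cases h : p a <;> simp [h])

@[fun_prop]
protected theorem PTF.not {f : α → Bool} (hf : PTF f) : PTF (fun a => !f a) :=
  (PTF.cond hf (PTF.const false) (PTF.const true)).of_eq (fun a => by cases f a <;> rfl)

@[fun_prop]
protected theorem PTF.and {f g : α → Bool} (hf : PTF f) (hg : PTF g) : PTF (fun a => f a && g a) :=
  (PTF.cond hf hg (PTF.const false)).of_eq (fun a => by cases f a <;> rfl)

@[fun_prop]
protected theorem PTF.or {f g : α → Bool} (hf : PTF f) (hg : PTF g) : PTF (fun a => f a || g a) :=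
  (PTF.cond hf (PTF.const true) hg).of_eq (fun a => by cases f a <;> rfl)

@[fun_prop]
protected theorem PTF.xor {f g : α → Bool} (hf : PTF f) (hg : PTF g) : PTF (fun a => Bool.xor (f a) (g a)) :=
  (PTF.cond hf hg.not hg).of_eq (fun a => by cases f a <;> simp)

@[fun_prop]
protected theorem PTPred.not {p : α → Prop} (hp : PTPred p) : PTPred (fun a => ¬ p a) := by
  obtain ⟨f, hf, h⟩ := hp
  exact ⟨_, hf.not, fun a => by simp [h]⟩

@[fun_prop]
protected theorem PTPred.and {p q : α → Prop} (hp : PTPred p) (hq : PTPred q) :
    PTPred (fun a => p a ∧ q a) := by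
  obtain ⟨f, hf, h⟩ := hp
  obtain ⟨g, hg, h'⟩ := hq
  exact ⟨_, hf.and hg, fun a => by simp [h, h']⟩

@[fun_prop]
protected theorem PTPred.or {p q : α → Prop} (hp : PTPred p) (hq : PTPred q) :
    PTPred (fun a => p a ∨ q a) := by
  obtain ⟨f, hf, h⟩ := hp
  obtain ⟨g, hg, h'⟩ := hq
  exact ⟨_, hf.or hg, fun a => by simp [h, h']⟩

@[fun_prop]
protected theorem PTPred.imp {p q : α → Prop} (hp : PTPred p) (hq : PTPred q) :
    PTPred (fun a => p a → q a) :=
  (hp.not.or hq).of_iff (fun a => by tauto)

@[fun_prop]
protected theorem PTPred.iff {p q : α → Prop} (hp : PTPred p) (hq : PTPred q) :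
    PTPred (fun a => p a ↔ q a) :=
  ((hp.imp hq).and (hq.imp hp)).of_iff (fun a => by tauto)

@[fun_prop]
protected theorem PTPred.comp {p : β → Prop} {f : α → β} (hp : PTPred p) (hf : PTF f) :
    PTPred (fun a => p (f a)) := by
  obtain ⟨g, hg, h⟩ := hp
  exact ⟨_, PTF.comp hg hf, fun a => by simp [h]⟩

@[fun_prop]
protected theorem PTPred.const (p : Prop) : PTPred (fun _ : α => p) := by
  classical
  exact ⟨_, PTF.const (decide p), fun a => by simp⟩

/-! ### finite case analysis by table lookup -/

/-- any function on a finite coded type is poly-time -/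
protected theorem PTF.of_finite [Finite α] (f : α → β) : PTF f := by
  classical
  have := Fintype.ofFinite α
  rcases isEmpty_or_nonempty α with h | ⟨⟨a0⟩⟩
  · exact ⟨_, PT.id, fun a => (h.false a).elim⟩
  let L : List (List Bool × List Bool) :=
    (Finset.univ : Finset α).toList.map (fun a => (enc a,
      enc (f a)))
  refine ⟨_, PT.table L [], fun a => ?_⟩
  have key : ∀ l : List α, a ∈ l → ((List.find? (fun q : List Bool × List Bool =>
      decide (enc a = q.1))
        (l.map (fun a => (enc a, enc (f a))))).map
        Prod.snd).getD [] = enc (f a) := by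
    intro l
    induction l with
    | nil => intro h; simp at h
    | cons b l ih =>
      intro h
      by_cases hab : a = b
      · subst hab; simp
      · have hm : a ∈ l := by
          rcases List.mem_cons.1 h with h | h
          · exact absurd h hab
          · exact h
        have := ih hm
        simpa [hab] using this
  exact key _ (by simp)

/-- case distinction over a finite type: if each branch is poly-time so is the whole -/
protected theorem PTF.finite_cases [Finite α] {f : α → β → γ} (h : ∀ a, PTF (f a)) :
    PTF (fun p : α × β => f p.1 p.2) := by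
  classical
  have := Fintype.ofFinite α
  have key : ∀ l : List α, ∀ d : List Bool, ∃ g, PT g ∧ ∀ a b, a ∈ l →
      g (pair (enc a) (enc b)) =
        enc (f a b) := by
    intro l d
    induction l with
    | nil => exact ⟨_, PT.id, fun a b h => by simp at h⟩
    | cons a0 l ih =>
      obtain ⟨g, hg, hg'⟩ := ih
      obtain ⟨g0, hg0, hg0'⟩ := h a0
      refine ⟨_, PTB.ite (PTB.comp (PTB.eqConst (enc a0)) PT.fst)
        (PT.comp hg0 PT.snd) hg, fun a b hm => ?_⟩
      by_cases hab : a = a0
      · subst hab; simp [hg0']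
      · have hm : a ∈ l := by
          rcases List.mem_cons.1 hm with h | h
          · exact absurd h hab
          · exact h
        simp [hab, hg' a b hm]
  obtain ⟨g, hg, hg'⟩ := key (Finset.univ : Finset α).toList []
  exact ⟨g, hg, fun p => hg' p.1 p.2 (by simp)⟩

protected theorem PTF.finite_cases' [Finite δ] {c : α → δ} {f : δ → α → γ} (hc : PTF c)
    (h : ∀ d, PTF (f d)) : PTF (fun a => f (c a) a) :=
  PTF.comp (f := fun a => (c a, a)) (PTF.finite_cases h) (PTF.prodMk hc PTF.id)

/-! ### sums and options -/

@[fun_prop]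
protected theorem PTF.inl {f : α → β} (hf : PTF f) : PTF (fun a => (Sum.inl (f a) : β ⊕ γ)) := by
  obtain ⟨f', hf', hf⟩ := hf
  exact ⟨_, PT.cons' false hf', fun a => by rw [hf]; rfl⟩

@[fun_prop]
protected theorem PTF.inr {f : α → γ} (hf : PTF f) : PTF (fun a => (Sum.inr (f a) : β ⊕ γ)) := by
  obtain ⟨f', hf', hf⟩ := hf
  exact ⟨_, PT.cons' true hf', fun a => by rw [hf]; rfl⟩

@[fun_prop]
protected theorem PTF.optSome {f : α → β} (hf : PTF f) : PTF (fun a => some (f a)) := by
  obtain ⟨f', hf', hf⟩ := hf
  exact ⟨_, PT.cons' true hf', fun a => by rw [hf]; rfl⟩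

protected theorem PTF.sumCasesOn {s : α → β ⊕ γ} {f : α → β → δ} {g : α → γ → δ} (hs : PTF s)
    (hf : PTF₂ f) (hg : PTF₂ g) :
    PTF (fun a => match s a with | Sum.inl b => f a b | Sum.inr c => g a c) := by
  obtain ⟨s', hs', hs⟩ := hs
  obtain ⟨f', hf', hf⟩ := hf
  obtain ⟨g', hg', hg⟩ := hg
  refine ⟨_, PT.ite hs' (PT.comp hg' (PT.pair PT.id (PT.tail' hs')))
    (PT.comp hf' (PT.pair PT.id (PT.tail' hs'))), fun a => ?_⟩
  simp only [hs]
  cases h : s a with
  | inl b => simpa [h] using hf (a, b)
  | inr c => simpa [h] using hg (a, c)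

protected theorem PTF.optionCasesOn {s : α → Option β} {f : α → δ} {g : α → β → δ} (hs : PTF s)
    (hf : PTF f) (hg : PTF₂ g) :
    PTF (fun a => match s a with | none => f a | some b => g a b) := by
  obtain ⟨s', hs', hs⟩ := hs
  obtain ⟨f', hf', hf⟩ := hf
  obtain ⟨g', hg', hg⟩ := hg
  refine ⟨_, PT.ite hs' (PT.comp hg' (PT.pair PT.id (PT.tail' hs'))) hf', fun a => ?_⟩
  simp only [hs]
  cases h : s a with
  | none => simpa [h] using hf a
  | some c => simpa [h] using hg (a, c)

protected theorem PTF.optionMap {s : α → Option β} {g : α → β → δ} (hs : PTF s) (hg : PTF₂ g) :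
    PTF (fun a => (s a).map (g a)) :=
  (PTF.optionCasesOn hs (PTF.const none) (f := fun _ => none) (g := fun a b => some (g a b))
    (PTF.optSome hg)).of_eq (fun a => by cases s a <;> rfl)

protected theorem PTF.optionBind {s : α → Option β} {g : α → β → Option δ} (hs : PTF s) (hg : PTF₂ g) :
    PTF (fun a => (s a).bind (g a)) :=
  (PTF.optionCasesOn hs (PTF.const none) hg).of_eq (fun a => by cases s a <;> rfl)

@[fun_prop]
protected theorem PTF.optionGetD {s : α → Option β} {d : α → β} (hs : PTF s) (hd : PTF d) :
    PTF (fun a => (s a).getD (d a)) :=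
  (PTF.optionCasesOn hs hd (g := fun _ b => b) PTF.snd).of_eq (fun a => by cases s a <;> rfl)

@[fun_prop]
protected theorem PTF.isSome {s : α → Option β} (hs : PTF s) : PTF (fun a => (s a).isSome) :=
  (PTF.optionCasesOn hs (PTF.const false) (g := fun _ _ => true) (PTF.const true)).of_eq
    (fun a => by cases s a <;> rfl)

/-! ### lists: constructors and case distinction -/

@[fun_prop]
protected theorem PTF.listCons {f : α → β} {g : α → List β} (hf : PTF f) (hg : PTF g) :
    PTF (fun a => f a :: g a) := by
  obtain ⟨f', hf', hf⟩ := hf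
  obtain ⟨g', hg', hg⟩ := hg
  exact ⟨_, PT.pair hf' hg', fun a => by rw [hf, hg]; rfl⟩

protected theorem PTF.listCasesOn {s : α → List β} {f : α → δ} {g : α → β → List β → δ} (hs : PTF s)
    (hf : PTF f) (hg : PTF (fun p : α × β × List β => g p.1 p.2.1 p.2.2)) :
    PTF (fun a => match s a with | [] => f a | b :: l => g a b l) := by
  obtain ⟨s', hs', hs⟩ := hs
  obtain ⟨f', hf', hf⟩ := hf
  obtain ⟨g', hg', hg⟩ := hg
  refine ⟨_, PT.ite (PT.comp PT.nonemptyTest hs') (PT.comp hg' (PT.pair PT.id hs')) hf',
    fun a => ?_⟩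
  simp only [hs]
  cases h : s a with
  | nil => simpa [h, nonemptyTest] using hf a
  | cons b l =>
    have := hg (a, b, l)
    simpa [h, nonemptyTest, pair_ne_nil] using this

@[fun_prop]
protected theorem PTF.head? {s : α → List β} (hs : PTF s) : PTF (fun a => (s a).head?) :=
  (PTF.listCasesOn hs (f := fun _ => none) (PTF.const none) (g := fun _ b _ => some b)
    (by fun_prop)).of_eq (fun a => by cases s a <;> rfl)

@[fun_prop]
protected theorem PTF.tail {s : α → List β} (hs : PTF s) : PTF (fun a => (s a).tail) :=
  (PTF.listCasesOn hs (f := fun _ => []) (PTF.const []) (g := fun _ _ l => l)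
    (by fun_prop)).of_eq (fun a => by cases s a <;> rfl)

@[fun_prop]
protected theorem PTF.isEmpty {s : α → List β} (hs : PTF s) : PTF (fun a => (s a).isEmpty) :=
  (PTF.listCasesOn hs (f := fun _ => true) (PTF.const true) (g := fun _ _ _ => false)
    (by fun_prop)).of_eq (fun a => by cases s a <;> rfl)

end more

end Crest.Agent.Lib.PT
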